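import Vale.Agent.P027.N.U.Sysu

/-! Structured names are replaced by natural numbers; the generator of the system. -/

set_option linter.all false

namespace Vale.Agent.P027.N.U

open Vale.Agent.P027 Vale.Agent.P027.N UD

/-- a polynomial pairing function -/
def pr (a b : ℕ) : ℕ := (a + b) * (a + b) + a

lemma pr_inj {a b a' b' : ℕ} (h : pr a b = pr a' b') : a = a' ∧ b = b' := by
  unfold pr at h
  have h1 : a + b = a' + b' := by
    by_contra hne
    rcases Nat.lt_or_gt_of_ne hne with hlt | hlt
    · have : (a + b + 1) * (a + b + 1) ≤ (a' + b') * (a' + b') := Nat.mul_le_mul hlt hlt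
      nlinarith
    · have : (a' + b' + 1) * (a' + b' + 1) ≤ (a + b) * (a + b) := Nat.mul_le_mul hlt hlt
      nlinarith
  rw [h1] at h
  omega

/-- code of a list of length at most `2 ^ h` -/
def cd : ℕ → List ℕ → ℕ
  | 0, l => l.headD 0
  | h + 1, l => pr (cd h (l.take (2 ^ h))) (cd h (l.drop (2 ^ h)))

lemma cd_inj : ∀ (h : ℕ) (l l' : List ℕ), l.length = l'.length → l.length ≤ 2 ^ h →
    cd h l = cd h l' → l = l'
  | 0, l, l', h1, h2, h3 => by
    rcases l with _ | ⟨a, _ | ⟨b, l⟩⟩
    · cases l' with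
      | nil => rfl
      | cons a l' => simp at h1
    · rcases l' with _ | ⟨a', _ | ⟨b', l'⟩⟩
      · simp at h1
      · simpa [cd] using h3
      · simp at h1
    · simp at h2
  | h + 1, l, l', h1, h2, h3 => by
    have h4 := pr_inj h3
    have h5 : l.take (2 ^ h) = l'.take (2 ^ h) := cd_inj h _ _
      (by rw [List.length_take, List.length_take, h1]) (by rw [List.length_take]; omega) h4.1
    have h6 : l.drop (2 ^ h) = l'.drop (2 ^ h) := cd_inj h _ _
      (by rw [List.length_drop, List.length_drop, h1])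
      (by rw [List.length_drop]; rw [pow_succ] at h2; omega) h4.2
    rw [← List.take_append_drop (2 ^ h) l, h5, h6, List.take_append_drop]

/-- code of a list by terms -/
def cdS : ℕ → List Bd → Bd
  | 0, l => l.headD (.const 0)
  | h + 1, l => .add (.mul (.add (cdS h (l.take (2 ^ h))) (cdS h (l.drop (2 ^ h))))
      (.add (cdS h (l.take (2 ^ h))) (cdS h (l.drop (2 ^ h))))) (cdS h (l.take (2 ^ h)))

lemma cdS_ev (p : List ℕ) : ∀ (h : ℕ) (l : List Bd), (cdS h l).ev p = cd h (l.map (Bd.ev p))
  | 0, l => by cases l <;> rfl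
  | h + 1, l => by
    simp only [cdS, cd, Bd.ev, cdS_ev p h, pr, List.map_take, List.map_drop]

/-- flattening of names -/
def fl : Nm ⊕ Nm → List ℕ
  | .inl n => 0 :: n.1.length :: (n.1 ++ n.2)
  | .inr n => 1 :: n.1.length :: (n.1 ++ n.2)

lemma fl_inj {m n : Nm ⊕ Nm} (h : fl m = fl n) : m = n := by
  have key : ∀ a b : Nm, a.1.length = b.1.length → a.1 ++ a.2 = b.1 ++ b.2 → a = b := by
    intro a b h1 h2
    obtain ⟨h3, h4⟩ := List.append_inj h2 h1
    exact Prod.ext h3 h4
  rcases m with m | m <;> rcases n with n | n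
  · simp only [fl, List.cons.injEq, true_and] at h
    rw [key m n h.1 h.2]
  · simp [fl] at h
  · simp [fl] at h
  · simp only [fl, List.cons.injEq, true_and] at h
    rw [key m n h.1 h.2]

def flS : NmS ⊕ NmS → List Bd
  | .inl n => .const 0 :: .const n.1.length :: (n.1.map Bd.const ++ n.2)
  | .inr n => .const 1 :: .const n.1.length :: (n.1.map Bd.const ++ n.2)

lemma flS_ev (p : List ℕ) (n : NmS ⊕ NmS) :
    (flS n).map (Bd.ev p) = fl (Sum.map (evn p) (evn p) n) := by
  have h : ∀ c : List ℕ, (c.map Bd.const).map (Bd.ev p) = c := by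
    intro c
    rw [List.map_map]
    exact (List.map_congr_left (fun _ _ => rfl)).trans (List.map_id c)
  rcases n with n | n
  · simp only [flS, fl, List.map_cons, List.map_append, h, Sum.map_inl, evn, Bd.ev]
  · simp only [flS, fl, List.map_cons, List.map_append, h, Sum.map_inr, evn, Bd.ev]

/-- code of a name -/
def code (h : ℕ) (n : Nm ⊕ Nm) : ℕ := pr (fl n).length (cd h (fl n))

lemma code_inj {h : ℕ} {m n : Nm ⊕ Nm} (hm : (fl m).length ≤ 2 ^ h) (e : code h m = code h n) :
    m = n := by
  obtain ⟨h1, h2⟩ := pr_inj e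
  exact fl_inj (cd_inj h _ _ h1 hm h2)

def codeS (h : ℕ) (n : NmS ⊕ NmS) : Bd :=
  .add (.mul (.add (.const (flS n).length) (cdS h (flS n)))
    (.add (.const (flS n).length) (cdS h (flS n)))) (.const (flS n).length)

lemma codeS_ev (h : ℕ) (p : List ℕ) (n : NmS ⊕ NmS) :
    (codeS h n).ev p = code h (Sum.map (evn p) (evn p) n) := by
  have h1 : (flS n).length = (fl (Sum.map (evn p) (evn p) n)).length := by
    rw [← flS_ev, List.length_map]
  simp only [codeS, code, Bd.ev, pr, cdS_ev, flS_ev, h1]

/-- the program with coded names -/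
def Pg.toGen (h : ℕ) : Pg → Gen
  | .nil => .nil
  | .emit e => .emit (e.map (codeS h))
  | .seq g k => .seq (g.toGen h) (k.toGen h)
  | .loop b g => .loop b (g.toGen h)
  | .bind b g => .bind b (g.toGen h)
  | .ite c g k => .ite c (g.toGen h) (k.toGen h)

lemma Pg.run_toGen (h : ℕ) (x : List Bool) (g : Pg) : ∀ p : List ℕ,
    (g.toGen h).run x p = (g.run x p).map (Eqn.map (code h)) := by
  induction g with
  | nil => intro p; rfl
  | emit e =>
    intro p
    simp only [Pg.toGen, Gen.run, Pg.run, List.map_cons, List.map_nil, Eqn.map_map,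
      List.cons.injEq, and_true]
    exact Eqn.map_congr (fun a => codeS_ev h p a) e
  | seq g k ihg ihk => intro p; simp only [Pg.toGen, Gen.run, Pg.run, ihg, ihk, List.map_append]
  | loop b g ih => intro p; simp only [Pg.toGen, Gen.run, Pg.run, ih, List.map_flatMap]
  | bind b g ih => intro p; simp only [Pg.toGen, Gen.run, Pg.run, ih]
  | ite c g k ihg ihk =>
    intro p
    simp only [Pg.toGen, Gen.run, Pg.run, ihg, ihk]
    split_ifs <;> rfl

/-- all names of an equation -/
def EqAll {α : Type} (P : α → Prop) : Eqn α → Prop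
  | .one a => P a
  | .add a b c => P a ∧ P b ∧ P c
  | .mul a b c => P a ∧ P b ∧ P c

/-- bound for the length of the names -/
def Pg.len : Pg → ℕ
  | .nil => 0
  | .emit (.one a) => (flS a).length
  | .emit (.add a b c) => (flS a).length + (flS b).length + (flS c).length
  | .emit (.mul a b c) => (flS a).length + (flS b).length + (flS c).length
  | .seq g k => g.len + k.len
  | .loop _ g => g.len
  | .bind _ g => g.len
  | .ite _ g k => g.len + k.len

lemma Pg.len_spec (x : List Bool) (g : Pg) : ∀ p : List ℕ, ∀ e ∈ g.run x p,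
    EqAll (fun n => (fl n).length ≤ g.len) e := by
  have hmono : ∀ {a b : ℕ} (hab : a ≤ b) (e : Eqn (Nm ⊕ Nm)),
      EqAll (fun n => (fl n).length ≤ a) e → EqAll (fun n => (fl n).length ≤ b) e := by
    intro a b hab e he
    cases e with
    | one n => exact le_trans he hab
    | add n m k => exact ⟨he.1.trans hab, he.2.1.trans hab, he.2.2.trans hab⟩
    | mul n m k => exact ⟨he.1.trans hab, he.2.1.trans hab, he.2.2.trans hab⟩
  have hl : ∀ (p : List ℕ) (a : NmS ⊕ NmS),
      (fl (Sum.map (evn p) (evn p) a)).length = (flS a).length := by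
    intro p a; rw [← flS_ev, List.length_map]
  induction g with
  | nil => intro p e he; simp [Pg.run] at he
  | emit e =>
    intro p e' he
    simp only [Pg.run, List.mem_singleton] at he
    subst he
    cases e with
    | one a => exact (hl p a).le
    | add a b c =>
      refine ⟨(hl p a).le.trans ?_, (hl p b).le.trans ?_, (hl p c).le.trans ?_⟩ <;>
        simp only [Pg.len] <;> omega
    | mul a b c =>
      refine ⟨(hl p a).le.trans ?_, (hl p b).le.trans ?_, (hl p c).le.trans ?_⟩ <;>
        simp only [Pg.len] <;> omega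
  | seq g k ihg ihk =>
    intro p e he
    rcases List.mem_append.1 he with he | he
    · exact hmono (Nat.le_add_right _ _) e (ihg p e he)
    · exact hmono (Nat.le_add_left _ _) e (ihk p e he)
  | loop b g ih =>
    intro p e he
    obtain ⟨i, _, he⟩ := List.mem_flatMap.1 he
    exact ih _ e he
  | bind b g ih => intro p e he; exact ih _ e he
  | ite c g k ihg ihk =>
    intro p e he
    simp only [Pg.run] at he
    split_ifs at he
    · exact hmono (Nat.le_add_right _ _) e (ihg p e he)
    · exact hmono (Nat.le_add_left _ _) e (ihk p e he)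

lemma holds_all {α : Type} {P : α → Prop} {u v : α → ℚ} (h : ∀ a, P a → u a = v a) (e : Eqn α)
    (he : EqAll P e) : e.Holds u ↔ e.Holds v := by
  cases e with
  | one a => simp only [Eqn.Holds, h a he]
  | add a b c => simp only [Eqn.Holds, h a he.1, h b he.2.1, h c he.2.2]
  | mul a b c => simp only [Eqn.Holds, h a he.1, h b he.2.1, h c he.2.2]

/-- coded names do not change solvability -/
lemma code_solv (g : Pg) (x : List Bool) (p : List ℕ) :
    (∃ y : ℕ → ℚ, ∀ e ∈ (g.toGen g.len).run x p, e.Holds y) ↔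
      ∃ u : Nm ⊕ Nm → ℚ, ∀ e ∈ g.run x p, e.Holds u := by
  classical
  rw [Pg.run_toGen]
  constructor
  · rintro ⟨y, hy⟩
    refine ⟨fun n => y (code g.len n), fun e he => ?_⟩
    have := hy _ (List.mem_map_of_mem he)
    rwa [Eqn.holds_map] at this
  · rintro ⟨u, hu⟩
    let y : ℕ → ℚ := fun m =>
      if h : ∃ n : Nm ⊕ Nm, (fl n).length ≤ 2 ^ g.len ∧ code g.len n = m then u h.choose else 0
    refine ⟨y, fun e he => ?_⟩
    obtain ⟨e', he', rfl⟩ := List.mem_map.1 he
    rw [Eqn.holds_map]
    refine (holds_all (P := fun n => (fl n).length ≤ g.len) ?_ e' (Pg.len_spec x g p e' he')).1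
      (hu e' he')
    intro n hn
    have hn' : (fl n).length ≤ 2 ^ g.len := hn.trans Nat.lt_two_pow_self.le
    have hex : ∃ m : Nm ⊕ Nm, (fl m).length ≤ 2 ^ g.len ∧ code g.len m = code g.len n :=
      ⟨n, hn', rfl⟩
    show u n = dite _ _ _
    rw [dif_pos hex]
    rw [code_inj hex.choose_spec.1 hex.choose_spec.2]

/-- module U4, with names and answers of polynomial length -/
def StGen2 : Prop := ∀ (F : UFm) (Lb Kb : Bd), ∃ g : Gen, ∀ x : List Bool,
  (∃ y : ℕ → ℚ, ∀ e ∈ g.out x, e.Holds y) ↔
    Orc (F.fm x (Lb.ev [x.length]) (Kb.ev [x.length]) [x.length]) (Fin.elim0 : Fin 0 → Bool)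

theorem stGen2 (hS : StStepSound) (hC : StStepComplete) (hB1 : StBasSound)
    (hB2 : StBasExists) (hB3 : StBasCell) (hB4 : StBasHon) : StGen2 := by
  intro F Lb Kb
  have h1 : UD (fun x p (v : Nm → ℚ) => ∃ w : Nm → ℚ,
      SysU (.add Lb (.const 2)) (.add Kb (.const 1)) Lb F x p w) :=
    UD.ex (S := fun x p v w => SysU (.add Lb (.const 2)) (.add Kb (.const 1)) Lb F x p w)
      ((UD.sysU (.add Lb (.const 2)) (.add Kb (.const 1)) Lb F).ren (fun c => 1 :: c))
  obtain ⟨g, hg⟩ := h1
  refine ⟨g.toGen g.len, fun x => ?_⟩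
  have h2 : (∃ w, SysU (.add Lb (.const 2)) (.add Kb (.const 1)) Lb F x [x.length] w) ↔
      SysN (Lb.ev [x.length]) (F.fm x (Lb.ev [x.length]) (Kb.ev [x.length]) [x.length])
        (zq (Fin.elim0 : Fin 0 → Bool)) := sysU_iff rfl rfl rfl _
  rw [← chain_iff_lin hS hC hB1 hB2 hB3 hB4, ← h2, Gen.out, code_solv]
  constructor
  · rintro ⟨u, hu⟩
    refine (hg x [x.length] (fun n => u (.inl n))).2 ⟨fun n => u (.inr n), fun e he => ?_⟩
    refine (Eqn.holds_congr e ?_).1 (hu e he)
    funext n; rcases n with n | n <;> rfl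
  · intro h
    obtain ⟨y, hy⟩ := (hg x [x.length] (fun _ => 0)).1 h
    exact ⟨_, hy⟩

/-- module U4 -/
theorem stGen (hS : StStepSound) (hC : StStepComplete) (hB1 : StBasSound)
    (hB2 : StBasExists) (hB3 : StBasCell) (hB4 : StBasHon) : StGen := fun F Lb k =>
  stGen2 hS hC hB1 hB2 hB3 hB4 F Lb (.const k)

end Vale.Agent.P027.N.U
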