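import Vale.Agent.P027.N.U.Typ
import Vale.Agent.P027.H833.Lin

/-! The final constraint and the whole system in uniform form. -/

set_option linter.all false

namespace Vale.Agent.P027.N.U

open Vale.Agent.P027 Vale.Agent.P027.N UD

/-! ### The query formula -/

/-- translation of uniform query formulas -/
def ofU : Bd → Bd → UFm → LF
  | nn, kk, .lb t j v => .ite (.lt j nn) (.rd ([0, 1, t.toNat, (!v).toNat], [j]))
      (.rd ([0, 1, t.toNat, (!v).toNat], [.const 0]))
  | nn, kk, .la t c v => .ite (.lt c kk) (.rd ([1, t.toNat, (!v).toNat], [c]))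
      (.rd ([1, t.toNat, (!v).toNat], [.const 0]))
  | nn, kk, .and f g => .and (ofU nn kk f) (ofU nn kk g)
  | nn, kk, .or f g => .or (ofU nn kk f) (ofU nn kk g)
  | nn, kk, .all b f => .all b (ofU nn.sh kk.sh f)
      (.or (.rd ([0, 1, 0, 0], [.const 0])) (.rd ([0, 1, 0, 1], [.const 0])))
  | nn, kk, .any b f => .any b (ofU nn.sh kk.sh f)
      (.and (.rd ([0, 1, 0, 0], [.const 0])) (.rd ([0, 1, 0, 1], [.const 0])))
  | nn, kk, .bind b f => .bind b (ofU nn.sh kk.sh f)
  | nn, kk, .ite c f g => .ite c (ofU nn kk f) (ofU nn kk g)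

lemma clamp_val (n j : ℕ) : ((clamp n j : Fin (n + 1)) : ℕ) = if j < n + 1 then j else 0 := by
  unfold clamp
  split_ifs <;> rfl

lemma val_ofU {L k : ℕ} {J : Type} (x : List Bool) (S S' : Nm → ℚ) (w : ℚ) (s' : J → ℚ) (wJ : J)
    (z : Fin 0 → ℚ) (U : Ic (L + 2) (k + 1)) (F : UFm) : ∀ (nn kk : Bd) (p : List ℕ),
    nn.ev p = L + 2 → kk.ev p = k + 1 →
    (ofU nn kk F).val x S S' w (S (nIc U)) p =
      ((F.fm x L k p).map trL).val (litV (fun i => S (nIc i)) s' wJ U z) := by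
  induction F with
  | lb t j v =>
    intro nn kk p hn hk
    simp only [ofU, LF.val, Cnd.ev, hn, UFm.fm]
    have h : (((Fm.lit (Vr.b t (clamp (L + 1) (j.ev p)), v)) : Fm (Vr 0 (L + 2) (k + 1) ×
        Bool)).map (trL (J := J))).val (litV (fun i => S (nIc i)) s' wJ U z) =
        1 / S (nIc (n := L + 2) (k := k + 1) (.inl (.inr (t, !v, clamp (L + 1) (j.ev p))))) := by
      cases v <;> rfl
    rw [h]
    simp only [nIc, nIa, clamp_val, decide_eq_true_eq]
    split_ifs <;> rfl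
  | la t j v =>
    intro nn kk p hn hk
    simp only [ofU, LF.val, Cnd.ev, hk, UFm.fm]
    have h : (((Fm.lit (Vr.a t (clamp k (j.ev p)), v)) : Fm (Vr 0 (L + 2) (k + 1) ×
        Bool)).map (trL (J := J))).val (litV (fun i => S (nIc i)) s' wJ U z) =
        1 / S (nIc (n := L + 2) (k := k + 1) (.inr (t, !v, clamp k (j.ev p)))) := by
      cases v <;> rfl
    rw [h]
    simp only [nIc, clamp_val, decide_eq_true_eq]
    split_ifs <;> rfl
  | and f g ihf ihg =>
    intro nn kk p hn hk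
    simp only [ofU, LF.val, UFm.fm, Fm.map, Fm.val, ihf nn kk p hn hk, ihg nn kk p hn hk]
  | or f g ihf ihg =>
    intro nn kk p hn hk
    simp only [ofU, LF.val, UFm.fm, Fm.map, Fm.val, ihf nn kk p hn hk, ihg nn kk p hn hk]
  | all b f ihf =>
    intro nn kk p hn hk
    have h : ∀ i, (ofU nn.sh kk.sh f).val x S S' w (S (nIc U)) (i :: p) =
        ((f.fm x L k (i :: p)).map trL).val (litV (fun i => S (nIc i)) s' wJ U z) := fun i =>
      ihf _ _ _ (by rw [Bd.ev_sh]; exact hn) (by rw [Bd.ev_sh]; exact hk)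
    simp only [ofU, LF.val, UFm.fm, bAnd, val_map] at h ⊢
    rw [val_foldr_and, List.map_map]
    simp only [h]
    rfl
  | any b f ihf =>
    intro nn kk p hn hk
    have h : ∀ i, (ofU nn.sh kk.sh f).val x S S' w (S (nIc U)) (i :: p) =
        ((f.fm x L k (i :: p)).map trL).val (litV (fun i => S (nIc i)) s' wJ U z) := fun i =>
      ihf _ _ _ (by rw [Bd.ev_sh]; exact hn) (by rw [Bd.ev_sh]; exact hk)
    simp only [ofU, LF.val, UFm.fm, bOr, val_map] at h ⊢
    rw [val_foldr_or, List.map_map]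
    simp only [h]
    rfl
  | bind b f ihf =>
    intro nn kk p hn hk
    exact ihf _ _ _ (by rw [Bd.ev_sh]; exact hn) (by rw [Bd.ev_sh]; exact hk)
  | ite c f g ihf ihg =>
    intro nn kk p hn hk
    simp only [ofU, LF.val, UFm.fm, ihf nn kk p hn hk, ihg nn kk p hn hk]
    split_ifs <;> rfl

/-! ### The final constraint -/

/-- two different names -/
def lNe (nn : Bd) : LF :=
  .any nn (.or (.and (.rd ([0, 1, 0, 1], [.var 0])) (.rd ([0, 1, 1, 0], [.var 0])))
      (.and (.rd ([0, 1, 0, 0], [.var 0])) (.rd ([0, 1, 1, 1], [.var 0]))))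
    (.and (.rd ([0, 0, 1], [])) (.nrd ([0, 0, 1], [])))

/-- two equal colours -/
def lEq (kk : Bd) : LF :=
  .all kk (.or (.and (.rd ([1, 0, 0], [.var 0])) (.rd ([1, 1, 0], [.var 0])))
      (.and (.rd ([1, 0, 1], [.var 0])) (.rd ([1, 1, 1], [.var 0]))))
    (.or (.rd ([0, 0, 1], [])) (.nrd ([0, 0, 1], [])))

def K3 (nn kk : Bd) (F : UFm) : List (Option Bd × LF) :=
  [(none, .or (lNv [0] nn false) (.or (lNv [0] nn true)
    (.and (ofU nn kk F) (.or (lNe nn) (lEq kk)))))]

lemma val_Nv3 {n k : ℕ} {nn : Bd} {π J : Type} (x : List Bool) {p : List ℕ} (hn : nn.ev p = n)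
    (S S' : Nm → ℚ) (w : ℚ) (s' : J → ℚ) (wJ : J) (z : π → ℚ) (U : Ic n k) (t : Bool) :
    (lNv [0] nn t).val x S S' w (S (nIc U)) p =
      (gNv (J := J) (π := π) (fun a => (Sum.inl (Sum.inr a) : Ic n k)) (.inl (.inl true)) t).val
        (litV (fun i => S (nIc i)) s' wJ U z) := by
  rw [gNv, lOr, val_foldr_or, List.map_map]
  subst hn
  refine congrArg₂ (fun (z : ℚ) (l : List ℚ) => List.foldr gOr z l) rfl ?_
  exact (finRange_map _ _ _ (fun j => rfl)).symm

lemma val_Ne3 {n k : ℕ} {nn : Bd} {π J : Type} (x : List Bool) {p : List ℕ} (hn : nn.ev p = n)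
    (S S' : Nm → ℚ) (w : ℚ) (s' : J → ℚ) (wJ : J) (z : π → ℚ) (U : Ic n k) :
    (lNe nn).val x S S' w (S (nIc U)) p =
      (gNe (J := J) (π := π) (n := n) (k := k)).val (litV (fun i => S (nIc i)) s' wJ U z) := by
  rw [gNe, lOr, val_foldr_or, List.map_map]
  subst hn
  refine congrArg₂ (fun (z : ℚ) (l : List ℚ) => List.foldr gOr z l) rfl ?_
  exact (finRange_map _ _ _ (fun j => rfl)).symm

lemma val_Eq3 {n k : ℕ} {kk : Bd} {π J : Type} (x : List Bool) {p : List ℕ} (hk : kk.ev p = k)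
    (S S' : Nm → ℚ) (w : ℚ) (s' : J → ℚ) (wJ : J) (z : π → ℚ) (U : Ic n k) :
    (lEq kk).val x S S' w (S (nIc U)) p =
      (gEq (J := J) (π := π) (n := n) (k := k)).val (litV (fun i => S (nIc i)) s' wJ U z) := by
  rw [gEq, lAnd, val_foldr_and, List.map_map]
  subst hk
  refine congrArg₂ (fun (z : ℚ) (l : List ℚ) => List.foldr gAnd z l) rfl ?_
  exact (finRange_map _ _ _ (fun j => rfl)).symm

lemma allK_3 {L k : ℕ} {nn kk : Bd} (x : List Bool) {p : List ℕ} (hn : nn.ev p = L + 2)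
    (hk : kk.ev p = k + 1) (S S' : Nm → ℚ) (z : Fin 0 → ℚ) (F : UFm) (U : Ic (L + 2) (k + 1))
    (P : ℚ → Prop) :
    AllK x S S' (S' (nU ())) (S (nIc U)) (K3 nn kk F) p P ↔
      ∀ c, P ((G3 (F.fm x L k p) c).val (litV (fun i => S (nIc i)) (fun j => S' (nU j)) () U z)) := by
  have h1 := val_Nv3 (k := k + 1) (π := Fin 0) (J := Unit) x hn S S' (S' (nU ()))
    (fun j => S' (nU j)) () z U false
  have h2 := val_Nv3 (k := k + 1) (π := Fin 0) (J := Unit) x hn S S' (S' (nU ()))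
    (fun j => S' (nU j)) () z U true
  have h3 := val_Ne3 (k := k + 1) (π := Fin 0) (J := Unit) x hn S S' (S' (nU ()))
    (fun j => S' (nU j)) () z U
  have h4 := val_Eq3 (n := L + 2) (π := Fin 0) (J := Unit) x hk S S' (S' (nU ()))
    (fun j => S' (nU j)) () z U
  have h5 := val_ofU (J := Unit) x S S' (S' (nU ())) (fun j => S' (nU j)) () z U F nn kk p hn hk
  simp only [AllK, K3, List.forall_mem_cons, List.not_mem_nil, false_imp_iff, implies_true,
    and_true, LF.val, G3, Fm.val, h1, h2, h3, h4, h5, forall_const]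

end Vale.Agent.P027.N.U
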