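import Vale.Agent.P027.N.Eqn

/-! A language of for-loop templates that output systems of elementary equations. The values of the
counters are small natural numbers (think of them as written in unary), the environment is the list
of the values of the counters, newest first. Every program runs in polynomial time. -/

set_option linter.all false

namespace Vale.Agent.P027.N.U

/-- terms: constants, counters -/
inductive Bd : Type
  | const (c : ℕ)
  | var (i : ℕ)
  | add (a b : Bd)
  | mul (a b : Bd)

/-- value of a term -/
def Bd.ev (p : List ℕ) : Bd → ℕ
  | .const c => c
  | .var i => p.getD i 0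
  | .add a b => a.ev p + b.ev p
  | .mul a b => a.ev p * b.ev p

/-- conditions; `bit a` asks for the input bit number `a`, `tb a b` for the binary digit number `b`
of the number `a` -/
inductive Cnd : Type
  | lt (a b : Bd)
  | bit (a : Bd)
  | tb (a b : Bd)

/-- truth of a condition -/
def Cnd.ev (x : List Bool) (p : List ℕ) : Cnd → Bool
  | .lt a b => decide (a.ev p < b.ev p)
  | .bit a => x.getD (a.ev p) false
  | .tb a b => (a.ev p).testBit (b.ev p)

/-- programs -/
inductive Gen : Type
  | nil
  | emit (e : Eqn Bd)
  | seq (g h : Gen)
  | loop (b : Bd) (g : Gen)
  | bind (b : Bd) (g : Gen)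
  | ite (c : Cnd) (g h : Gen)

/-- the output of a program on the input word `x` and the counters `p` -/
def Gen.run (x : List Bool) : Gen → List ℕ → List (Eqn ℕ)
  | .nil, _ => []
  | .emit e, p => [e.map (Bd.ev p)]
  | .seq g h, p => g.run x p ++ h.run x p
  | .loop b g, p => (List.range (b.ev p)).flatMap (fun i => g.run x (i :: p))
  | .bind b g, p => g.run x (b.ev p :: p)
  | .ite c g h, p => if c.ev x p then g.run x p else h.run x p

/-- the output of a program on an input word: the first counter is the length of the word -/
def Gen.out (g : Gen) (x : List Bool) : List (Eqn ℕ) := g.run x [x.length]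

/-! ### Encoding of the output -/

/-- the output alphabet -/
inductive Sy : Type
  | one | add | mul | tick | stop
  deriving DecidableEq

instance : Fintype Sy := ⟨{.one, .add, .mul, .tick, .stop}, fun x => by cases x <;> decide⟩

/-- a natural number in unary, followed by the stop sign -/
def encN (n : ℕ) : List Sy := List.replicate n Sy.tick ++ [Sy.stop]

/-- an equation -/
def encE : Eqn ℕ → List Sy
  | .one a => Sy.one :: encN a
  | .add a b c => Sy.add :: (encN a ++ (encN b ++ encN c))
  | .mul a b c => Sy.mul :: (encN a ++ (encN b ++ encN c))

/-- a list of equations -/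
def enc (L : List (Eqn ℕ)) : List Sy := L.flatMap encE

lemma encN_inj {a b : ℕ} {s t : List Sy} (h : encN a ++ s = encN b ++ t) : a = b ∧ s = t := by
  induction a generalizing b with
  | zero =>
    cases b with
    | zero => simpa [encN] using h
    | succ b => simp [encN, List.replicate_succ] at h
  | succ a ih =>
    cases b with
    | zero => simp [encN, List.replicate_succ] at h
    | succ b =>
      have h1 : encN a ++ s = encN b ++ t := by
        simpa [encN, List.replicate_succ] using h
      obtain ⟨h2, h3⟩ := ih h1
      exact ⟨by rw [h2], h3⟩

lemma encE_inj {e f : Eqn ℕ} {s t : List Sy} (h : encE e ++ s = encE f ++ t) : e = f ∧ s = t := by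
  cases e with
  | one a =>
    cases f with
    | one b =>
      simp only [encE, List.cons_append, List.cons.injEq, true_and] at h
      obtain ⟨h1, h2⟩ := encN_inj h
      exact ⟨by rw [h1], h2⟩
    | add a' b' c' => simp [encE] at h
    | mul a' b' c' => simp [encE] at h
  | add a b c =>
    cases f with
    | one b => simp [encE] at h
    | add a' b' c' =>
      simp only [encE, List.cons_append, List.cons.injEq, true_and, List.append_assoc] at h
      obtain ⟨h1, h2⟩ := encN_inj h
      obtain ⟨h3, h4⟩ := encN_inj h2
      obtain ⟨h5, h6⟩ := encN_inj h4
      exact ⟨by rw [h1, h3, h5], h6⟩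
    | mul a' b' c' => simp [encE] at h
  | mul a b c =>
    cases f with
    | one b => simp [encE] at h
    | add a' b' c' => simp [encE] at h
    | mul a' b' c' =>
      simp only [encE, List.cons_append, List.cons.injEq, true_and, List.append_assoc] at h
      obtain ⟨h1, h2⟩ := encN_inj h
      obtain ⟨h3, h4⟩ := encN_inj h2
      obtain ⟨h5, h6⟩ := encN_inj h4
      exact ⟨by rw [h1, h3, h5], h6⟩

/-- the encoding is faithful -/
theorem enc_injective : Function.Injective enc := by
  intro L M h
  induction L generalizing M with
  | nil =>
    cases M with
    | nil => rfl
    | cons f M => cases f <;> simp [enc, encE] at h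
  | cons e L ih =>
    cases M with
    | nil => cases e <;> simp [enc, encE] at h
    | cons f M =>
      have h1 : encE e ++ enc L = encE f ++ enc M := by simpa [enc] using h
      obtain ⟨h2, h3⟩ := encE_inj h1
      rw [h2, ih h3]

/-- the compiler theorem: every program is computable in polynomial time -/
def StCompile : Prop := ∀ g : Gen, Nonempty (Turing.TM2ComputableInPolyTime (id : List Bool → List Bool) enc g.out)

end Vale.Agent.P027.N.U
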