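import Vale.Agent.P027.N.U.Ud

/-! Uniform functions; values of uniform formulas over literals. -/

set_option linter.all false

namespace Vale.Agent.P027.N.U

open Vale.Agent.P027 Vale.Agent.P027.N UD

/-- renaming of the free names -/
theorem UD.ren {S : List Bool → List ℕ → (Nm → ℚ) → Prop} (h : UD S) (f : List ℕ → List ℕ) :
    UD (fun x p v => S x p (fun n => v (f n.1, n.2))) := by
  obtain ⟨g, hg⟩ := h
  refine ⟨g.rn (fun c => match c with | .inl c => .inl (f c) | .inr c => .inr c), fun x p v => ?_⟩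
  beta_reduce
  rw [hg, Pg.run_rn]
  constructor
  · rintro ⟨y, hy⟩
    refine ⟨y, fun e he => ?_⟩
    obtain ⟨e', he', rfl⟩ := List.mem_map.1 he
    rw [Eqn.holds_map]
    refine (Eqn.holds_congr e' ?_).1 (hy e' he')
    funext n; rcases n with n | n <;> rfl
  · rintro ⟨y, hy⟩
    refine ⟨y, fun e he => ?_⟩
    have := hy _ (List.mem_map_of_mem he)
    rw [Eqn.holds_map] at this
    refine (Eqn.holds_congr e ?_).1 this
    funext n; rcases n with n | n <;> rfl

/-- uniform functions -/
def UF (F : List Bool → List ℕ → (Nm → ℚ) → ℚ) : Prop :=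
  UD (fun x p u => rgt u ([], []) = F x p (lft u))

/-- a further prefix -/
def pfx (i : ℕ) (a : NmS) : NmS := (i :: a.1, a.2)

/-- substitution -/
theorem UD.sub {F : List Bool → List ℕ → (Nm → ℚ) → ℚ}
    {S : List Bool → List ℕ → (Nm → ℚ) → ℚ → Prop} (hF : UF F)
    (hS : UD (fun x p u => S x p (lft u) (rgt u ([], [])))) :
    UD (fun x p v => S x p v (F x p v)) := by
  have h : UD (fun x p v => ∃ w : Nm → ℚ, w ([], []) = F x p v ∧ S x p v (w ([], []))) :=
    UD.ex (S := fun x p v w => w ([], []) = F x p v ∧ S x p v (w ([], []))) (hF.and hS)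
  refine h.congr (fun x p v => ?_)
  constructor
  · intro h
    exact ⟨fun _ => F x p v, rfl, h⟩
  · rintro ⟨w, h1, h2⟩
    rw [← h1]
    exact h2

namespace UF

variable {F G Z : List Bool → List ℕ → (Nm → ℚ) → ℚ} {c : ℕ}

theorem congr (h : UF F) (e : ∀ x p v, G x p v = F x p v) : UF G :=
  UD.congr h (fun x p u => by rw [e])

def lfT : List ℕ → List ℕ
  | 0 :: c => 0 :: 0 :: c
  | c => c

theorem lft (h : UF F) : UF (fun x p u => F x p (UD.lft u)) :=
  UD.ren h lfT

theorem emb {α : Type} {φ : (α → ℚ) → ℚ} (h : SF α c φ) (ν : α → NmS) :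
    UF (fun x p v => φ (fun a => v (evn p (ν a)))) :=
  UD.emb h (fun o => match o with
    | none => (([1], []) : NmS)
    | some a => pfx 0 (ν a))

theorem var (a : NmS) : UF (fun _ p v => v (evn p a)) :=
  emb (SF.var (0 : Fin 1)) (fun _ => a)

theorem un {op : ℚ → ℚ} (h : SF (Fin 1) c (fun u => op (u 0))) (hF : UF F) :
    UF (fun x p v => op (F x p v)) := by
  refine UD.sub (S := fun x p u r => rgt u ([], []) = op r) hF.lft ?_
  exact UD.emb h (fun o => match o with
    | none => (([0, 1], []) : NmS)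
    | some _ => ([1], []))

theorem bin {op : ℚ → ℚ → ℚ} (h : SF (Fin 2) c (fun u => op (u 0) (u 1))) (hF : UF F)
    (hG : UF G) : UF (fun x p v => op (F x p v) (G x p v)) := by
  refine UD.sub (S := fun x p u r => rgt u ([], []) = op r (G x p (UD.lft u))) hF.lft ?_
  refine UD.sub (S := fun x p u r => rgt (UD.lft u) ([], []) = op (rgt u ([], [])) r)
    hG.lft.lft ?_
  exact UD.emb h (fun o => match o with
    | none => (([0, 0, 1], []) : NmS)
    | some 0 => ([0, 1], [])
    | some 1 => ([1], []))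

theorem bind (b : Bd) (h : UF F) : UF (fun x p v => F x (b.ev p :: p) v) := UD.bind b h

theorem ite (c : Cnd) (hF : UF F) (hG : UF G) :
    UF (fun x p v => if c.ev x p then F x p v else G x p v) :=
  UD.congr (UD.ite c hF hG) (fun x p v => by beta_reduce; split_ifs <;> rfl)

lemma fold_aux (op : ℚ → ℚ → ℚ) (f : ℕ → ℚ) (n : ℕ) (z : ℚ) (w : ℕ → ℚ) (h0 : w n = z)
    (h1 : ∀ i < n, w i = op (f i) (w (i + 1))) :
    ((List.range n).map f).foldr op z = w 0 := by
  induction n generalizing z with
  | zero => simpa using h0.symm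
  | succ n ih =>
    rw [List.range_succ, List.map_append, List.foldr_append]
    refine ih _ ?_ (fun i hi => h1 i (by omega))
    rw [h1 n (by omega), h0]
    rfl

lemma fold_ex (op : ℚ → ℚ → ℚ) (f : ℕ → ℚ) (n : ℕ) (z : ℚ) :
    ∃ w : ℕ → ℚ, w n = z ∧ ∀ i < n, w i = op (f i) (w (i + 1)) := by
  induction n generalizing z with
  | zero => exact ⟨fun _ => z, rfl, fun i hi => absurd hi (by omega)⟩
  | succ n ih =>
    obtain ⟨w, h0, h1⟩ := ih (op (f n) z)
    refine ⟨fun i => if i = n + 1 then z else w i, by simp, fun i hi => ?_⟩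
    have e1 : i ≠ n + 1 := by omega
    simp only [e1, if_false]
    by_cases e2 : i = n
    · subst e2
      simpa using h0
    · have e3 : i + 1 ≠ n + 1 := by omega
      simp only [e3, if_false]
      exact h1 i (by omega)

/-- folds -/
theorem fold {op : ℚ → ℚ → ℚ} (h : SF (Fin 2) c (fun u => op (u 0) (u 1))) (b : Bd) (hF : UF F)
    (hZ : UF Z) :
    UF (fun x p v => ((List.range (b.ev p)).map (fun i => F x (i :: p) v)).foldr op (Z x p v)) := by
  have h1 : UD (fun x p u => rgt u ([], [b.ev p]) = Z x p (UD.lft (UD.lft u))) := by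
    refine UD.sub (S := fun x p u r => rgt u ([], [b.ev p]) = r) hZ.lft.lft ?_
    exact UD.emb (SD.eq (SF.var (0 : Fin 2)) (SF.var 1)) (fun i => match i with
      | 0 => (([0, 1], [b]) : NmS)
      | 1 => ([1], []))
  have h2 : UD (fun x p u => ∀ i < b.ev p, rgt u ([], [i]) =
      op (F x (i :: p) (UD.lft (UD.lft u))) (rgt u ([], [i + 1]))) := by
    refine UD.loop (S := fun x p u => rgt u ([], [(Bd.var 0).ev p]) =
      op (F x p (UD.lft (UD.lft u))) (rgt u ([], [(Bd.var 0).ev p + 1]))) b ?_
    refine UD.sub (S := fun x p u r => rgt u ([], [(Bd.var 0).ev p]) =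
      op r (rgt u ([], [(Bd.var 0).ev p + 1]))) hF.lft.lft ?_
    exact UD.emb h (fun i => match i with
      | none => (([0, 1], [Bd.var 0]) : NmS)
      | some 0 => ([1], [])
      | some 1 => ([0, 1], [Bd.add (Bd.var 0) (Bd.const 1)]))
  have h3 : UD (fun x p u => rgt (UD.lft u) ([], []) = rgt u ([], [0])) :=
    UD.emb (SD.eq (SF.var (0 : Fin 2)) (SF.var 1)) (fun i => match i with
      | 0 => (([0, 1], []) : NmS)
      | 1 => ([1], [Bd.const 0]))
  have h4 : UD (fun x p u => ∃ w : Nm → ℚ, w ([], [b.ev p]) = Z x p (UD.lft u) ∧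
      ((∀ i < b.ev p, w ([], [i]) = op (F x (i :: p) (UD.lft u)) (w ([], [i + 1]))) ∧
        rgt u ([], []) = w ([], [0]))) :=
    UD.ex (S := fun x p u w => w ([], [b.ev p]) = Z x p (UD.lft u) ∧
      ((∀ i < b.ev p, w ([], [i]) = op (F x (i :: p) (UD.lft u)) (w ([], [i + 1]))) ∧
        rgt u ([], []) = w ([], [0]))) (h1.and (h2.and h3))
  refine UD.congr h4 (fun x p u => ?_)
  constructor
  · intro h
    obtain ⟨w, hw0, hw1⟩ := fold_ex op (fun i => F x (i :: p) (UD.lft u)) (b.ev p)
      (Z x p (UD.lft u))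
    refine ⟨fun n => w (n.2.headD 0), hw0, hw1, ?_⟩
    rw [h]
    exact fold_aux op _ _ _ w hw0 hw1
  · rintro ⟨w, h1, h2, h3⟩
    rw [h3]
    exact (fold_aux op _ _ _ (fun i => w ([], [i])) h1 h2).symm

end UF

/-! ### Arrays -/

/-- the value of an array -/
def arr (p : List ℕ) (A : NmS) (v : Nm → ℚ) : Nm → ℚ :=
  fun n => v (A.1 ++ n.1, A.2.map (Bd.ev p) ++ n.2)

/-- a name in an array -/
def app (A n : NmS) : NmS := (A.1 ++ n.1, A.2 ++ n.2)

lemma arr_evn (p : List ℕ) (A n : NmS) (v : Nm → ℚ) : arr p A v (evn p n) = v (evn p (app A n)) := by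
  simp [arr, app, evn]

/-- shift of a name -/
abbrev shn (a : NmS) : NmS := NmS.shc 0 a

lemma evn_sh (p : List ℕ) (a : NmS) : evn p (shn a) = evn p.tail a := evn_shc (q := []) rfl p a

lemma arr_sh (p : List ℕ) (A : NmS) (v : Nm → ℚ) : arr p (shn A) v = arr p.tail A v := by
  funext n
  have := evn_sh p A
  simp only [evn, shn, NmS.shc, Prod.mk.injEq, true_and] at this
  simp only [arr, shn, NmS.shc, this]

/-! ### Formulas over literals -/

/-- uniform formulas over literals -/
inductive LF : Type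
  | rd (k : NmS)
  | nrd (k : NmS)
  | one (j : NmS)
  | zero (j : NmS)
  | and (f g : LF)
  | or (f g : LF)
  | all (b : Bd) (f z : LF)
  | any (b : Bd) (f z : LF)
  | bind (b : Bd) (f : LF)
  | ite (c : Cnd) (f g : LF)

/-- value; `w` is the reference value, `a` the source value -/
def LF.val (x : List Bool) (s s' : Nm → ℚ) (w a : ℚ) : LF → List ℕ → ℚ
  | .rd k, p => 1 / s (evn p k)
  | .nrd k, p => s (evn p k) / a
  | .one j, p => a * w / s' (evn p j)
  | .zero j, p => s' (evn p j) / (w * a)
  | .and f g, p => gAnd (f.val x s s' w a p) (g.val x s s' w a p)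
  | .or f g, p => gOr (f.val x s s' w a p) (g.val x s s' w a p)
  | .all b f z, p =>
    ((List.range (b.ev p)).map (fun i => f.val x s s' w a (i :: p))).foldr gAnd
      (z.val x s s' w a p)
  | .any b f z, p =>
    ((List.range (b.ev p)).map (fun i => f.val x s s' w a (i :: p))).foldr gOr
      (z.val x s s' w a p)
  | .bind b f, p => f.val x s s' w a (b.ev p :: p)
  | .ite c f g, p => if c.ev x p then f.val x s s' w a p else g.val x s s' w a p

/-- the gates -/
def sfAnd : SF (Fin 2) 44 (fun u => gAnd (u 0) (u 1)) :=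
  SF.mono (SF.gAnd (SF.var (0 : Fin 2)) (SF.var 1)) (by norm_num)

def sfOr : SF (Fin 2) 84 (fun u => gOr (u 0) (u 1)) :=
  SF.mono (SF.gOr (SF.var (0 : Fin 2)) (SF.var 1)) (by norm_num)

/-- values of uniform formulas are uniform functions -/
theorem UF.val (f : LF) : ∀ A B w a : NmS, UF (fun x p v =>
    f.val x (arr p A v) (arr p B v) (v (evn p w)) (v (evn p a)) p) := by
  induction f with
  | rd k =>
    intro A B w a
    exact (UF.emb (SF.one.div (SF.var (0 : Fin 1))) (fun _ => app A k)).congr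
      (fun x p v => by simp only [LF.val, arr_evn])
  | nrd k =>
    intro A B w a
    exact (UF.emb ((SF.var (0 : Fin 2)).div (SF.var 1)) ![app A k, a]).congr
      (fun x p v => by simp only [LF.val, arr_evn]; rfl)
  | one j =>
    intro A B w a
    exact (UF.emb (((SF.var (0 : Fin 3)).mul (SF.var 1)).div (SF.var 2)) ![a, w, app B j]).congr
      (fun x p v => by simp only [LF.val, arr_evn]; rfl)
  | zero j =>
    intro A B w a
    exact (UF.emb ((SF.var (0 : Fin 3)).div ((SF.var 1).mul (SF.var 2))) ![app B j, w, a]).congr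
      (fun x p v => by simp only [LF.val, arr_evn]; rfl)
  | and f g ihf ihg => exact fun A B w a => UF.bin sfAnd (ihf A B w a) (ihg A B w a)
  | or f g ihf ihg => exact fun A B w a => UF.bin sfOr (ihf A B w a) (ihg A B w a)
  | all b f z ihf ihz =>
    intro A B w a
    refine (UF.fold (F := fun x p v => f.val x (arr p.tail A v) (arr p.tail B v)
      (v (evn p.tail w)) (v (evn p.tail a)) p) sfAnd b ?_ (ihz A B w a)).congr
        (fun x p v => rfl)
    exact (ihf (shn A) (shn B) (shn w) (shn a)).congr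
      (fun x p v => by simp only [arr_sh, evn_sh])
  | any b f z ihf ihz =>
    intro A B w a
    refine (UF.fold (F := fun x p v => f.val x (arr p.tail A v) (arr p.tail B v)
      (v (evn p.tail w)) (v (evn p.tail a)) p) sfOr b ?_ (ihz A B w a)).congr
        (fun x p v => rfl)
    exact (ihf (shn A) (shn B) (shn w) (shn a)).congr
      (fun x p v => by simp only [arr_sh, evn_sh])
  | bind b f ihf =>
    intro A B w a
    refine (UF.bind (F := fun x p v => f.val x (arr p.tail A v) (arr p.tail B v)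
      (v (evn p.tail w)) (v (evn p.tail a)) p) b ?_).congr (fun x p v => rfl)
    exact (ihf (shn A) (shn B) (shn w) (shn a)).congr
      (fun x p v => by simp only [arr_sh, evn_sh])
  | ite c f g ihf ihg => exact fun A B w a => UF.ite c (ihf A B w a) (ihg A B w a)

/-! ### Shifts of formulas -/

def LF.shc : ℕ → LF → LF
  | d, .rd k => .rd (NmS.shc d k)
  | d, .nrd k => .nrd (NmS.shc d k)
  | d, .one k => .one (NmS.shc d k)
  | d, .zero k => .zero (NmS.shc d k)
  | d, .and f g => .and (LF.shc d f) (LF.shc d g)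
  | d, .or f g => .or (LF.shc d f) (LF.shc d g)
  | d, .all b f z => .all (b.shc d) (LF.shc (d + 1) f) (LF.shc d z)
  | d, .any b f z => .any (b.shc d) (LF.shc (d + 1) f) (LF.shc d z)
  | d, .bind b f => .bind (b.shc d) (LF.shc (d + 1) f)
  | d, .ite c f g => .ite (c.shc d) (LF.shc d f) (LF.shc d g)

lemma LF.val_shc (x : List Bool) (s s' : Nm → ℚ) (w a : ℚ) (f : LF) : ∀ (d : ℕ) (q p : List ℕ),
    q.length = d → (LF.shc d f).val x s s' w a (q ++ p) = f.val x s s' w a (q ++ p.tail) := by
  induction f with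
  | rd k => intro d q p hq; simp only [LF.shc, LF.val, evn_shc hq]
  | nrd k => intro d q p hq; simp only [LF.shc, LF.val, evn_shc hq]
  | one k => intro d q p hq; simp only [LF.shc, LF.val, evn_shc hq]
  | zero k => intro d q p hq; simp only [LF.shc, LF.val, evn_shc hq]
  | and f g ihf ihg => intro d q p hq; simp only [LF.shc, LF.val, ihf d q p hq, ihg d q p hq]
  | or f g ihf ihg => intro d q p hq; simp only [LF.shc, LF.val, ihf d q p hq, ihg d q p hq]
  | all b f z ihf ihz =>
    intro d q p hq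
    have h : ∀ i, (LF.shc (d + 1) f).val x s s' w a (i :: (q ++ p)) =
        f.val x s s' w a (i :: (q ++ p.tail)) := fun i =>
      ihf (d + 1) (i :: q) p (by simp [hq])
    simp only [LF.shc, LF.val, ihz d q p hq, Bd.ev_shc hq, h]
  | any b f z ihf ihz =>
    intro d q p hq
    have h : ∀ i, (LF.shc (d + 1) f).val x s s' w a (i :: (q ++ p)) =
        f.val x s s' w a (i :: (q ++ p.tail)) := fun i =>
      ihf (d + 1) (i :: q) p (by simp [hq])
    simp only [LF.shc, LF.val, ihz d q p hq, Bd.ev_shc hq, h]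
  | bind b f ihf =>
    intro d q p hq
    have h : ∀ i, (LF.shc (d + 1) f).val x s s' w a (i :: (q ++ p)) =
        f.val x s s' w a (i :: (q ++ p.tail)) := fun i =>
      ihf (d + 1) (i :: q) p (by simp [hq])
    simp only [LF.shc, LF.val, Bd.ev_shc hq, h]
  | ite c f g ihf ihg =>
    intro d q p hq
    simp only [LF.shc, LF.val, ihf d q p hq, ihg d q p hq, Cnd.ev_shc hq]

/-- shift of a formula -/
abbrev LF.sh (f : LF) : LF := LF.shc 0 f

lemma LF.val_sh (x : List Bool) (s s' : Nm → ℚ) (w a : ℚ) (f : LF) (p : List ℕ) :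
    f.sh.val x s s' w a p = f.val x s s' w a p.tail := LF.val_shc x s s' w a f 0 [] p rfl

end Vale.Agent.P027.N.U
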