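import Vale.Agent.P027.N.U.Lf

/-! Uniform checks and steps. -/

set_option linter.all false

namespace Vale.Agent.P027.N.U

open Vale.Agent.P027 Vale.Agent.P027.N UD

/-! ### Bounded families of names and of constraints -/

/-- all names of a family: constant tags with at most one counter -/
def AllN (E : List (List ℕ × Option Bd)) (p : List ℕ) (P : Nm → Prop) : Prop :=
  ∀ e ∈ E, match e.2 with
    | none => P (e.1, [])
    | some b => ∀ i < b.ev p, P (e.1, [i])

def shE (E : List (List ℕ × Option Bd)) : List (List ℕ × Option Bd) :=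
  E.map (fun e => (e.1, e.2.map Bd.sh))

lemma allN_sh (E : List (List ℕ × Option Bd)) (p : List ℕ) (P : Nm → Prop) :
    AllN (shE E) p P ↔ AllN E p.tail P := by
  unfold AllN shE
  rw [List.forall_mem_map]
  refine forall₂_congr (fun e _ => ?_)
  rcases e with ⟨c, _ | b⟩
  · rfl
  · simp only [Option.map_some, Bd.ev_sh]

theorem UD.allN (E : List (List ℕ × Option Bd)) {Q : List Bool → List ℕ → (Nm → ℚ) → Nm → Prop}
    (h0 : ∀ c, UD (fun x p v => Q x p v (c, [])))
    (h1 : ∀ c, UD (fun x p v => Q x p.tail v (c, [p.headD 0]))) :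
    UD (fun x p v => AllN E p (Q x p v)) := by
  refine UD.all_list (S := fun (e : List ℕ × Option Bd) x p v => match e.2 with
    | none => Q x p v (e.1, [])
    | some b => ∀ i < b.ev p, Q x p v (e.1, [i])) (fun e => ?_) E
  rcases e with ⟨c, _ | b⟩
  · exact h0 c
  · exact (UD.loop b (h1 c)).congr (fun x p v => Iff.rfl)

/-- all constraints of a family -/
def AllK (x : List Bool) (s s' : Nm → ℚ) (w a : ℚ) (K : List (Option Bd × LF)) (p : List ℕ)
    (P : ℚ → Prop) : Prop :=
  ∀ e ∈ K, match e.1 with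
    | none => P (e.2.val x s s' w a p)
    | some b => ∀ i < b.ev p, P (e.2.val x s s' w a (i :: p))

def shK (K : List (Option Bd × LF)) : List (Option Bd × LF) :=
  K.map (fun e => match e.1 with
    | none => (none, e.2.sh)
    | some b => (some b.sh, LF.shc 1 e.2))

lemma allK_sh (x : List Bool) (s s' : Nm → ℚ) (w a : ℚ) (K : List (Option Bd × LF)) (p : List ℕ)
    (P : ℚ → Prop) : AllK x s s' w a (shK K) p P ↔ AllK x s s' w a K p.tail P := by
  unfold AllK shK
  rw [List.forall_mem_map]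
  refine forall₂_congr (fun e _ => ?_)
  rcases e with ⟨_ | b, f⟩
  · simp only [LF.val_sh]
  · have h : ∀ i, (LF.shc 1 f).val x s s' w a (i :: p) = f.val x s s' w a (i :: p.tail) :=
      fun i => LF.val_shc x s s' w a f 1 [i] p rfl
    simp only [Bd.ev_sh, h]

/-! ### Checks -/

/-- the check with source value `a` -/
def ChkU (x : List Bool) (p : List ℕ) (s s' : Nm → ℚ) (w a : ℚ)
    (EJ : List (List ℕ × Option Bd)) (K : List (Option Bd × LF)) : Prop :=
  ∃ b c : ℚ, (b ^ 2 - a ^ 2) * (b ^ 2 - 9 * a ^ 2) = 0 ∧ (Cap c b ∧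
    (AllN EJ p (fun n => Con c b (gOr a (1 / s' n))) ∧
      AllK x s s' w a K p (fun r => Con c b (gOr a r))))

lemma chkU_sh (x : List Bool) (p : List ℕ) (s s' : Nm → ℚ) (w a : ℚ)
    (EJ : List (List ℕ × Option Bd)) (K : List (Option Bd × LF)) :
    ChkU x p s s' w a (shE EJ) (shK K) ↔ ChkU x p.tail s s' w a EJ K := by
  unfold ChkU
  simp only [allN_sh, allK_sh]

/-- polynomial condition of the check -/
def sdSrc : SD (Fin 2) 140 (fun u => (u 0 ^ 2 - u 1 ^ 2) * (u 0 ^ 2 - 9 * u 1 ^ 2) = 0) :=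
  (SD.eq ((((SF.var (0 : Fin 2)).pow 2).sub ((SF.var (1 : Fin 2)).pow 2)).mul
    (((SF.var (0 : Fin 2)).pow 2).sub ((SF.n 9).mul ((SF.var (1 : Fin 2)).pow 2))))
      SF.zero).mono (by norm_num)

def sdConJ : SD (Fin 4) 400 (fun u => Con (u 0) (u 1) (gOr (u 2) (1 / u 3))) :=
  (SD.con (SF.var (0 : Fin 4)) (SF.var 1) (SF.gOr (SF.var 2)
    (SF.one.div (SF.var 3)))).mono (by norm_num)

def sdConK : SD (Fin 4) 400 (fun u => Con (u 0) (u 1) (gOr (u 2) (u 3))) :=
  (SD.con (SF.var (0 : Fin 4)) (SF.var 1) (SF.gOr (SF.var 2) (SF.var 3))).mono (by norm_num)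

lemma evn_zero (p : List ℕ) (c : List ℕ) : ((c, [p.headD 0]) : Nm) = evn p (c, [Bd.var 0]) := by
  cases p <;> rfl

theorem UD.conJ (B a n : NmS) : UD (fun x p u => Con (rgt u ([1], [])) (rgt u ([0], []))
    (gOr (lft u (evn p a)) (1 / arr p B (lft u) (evn p n)))) := by
  refine (UD.emb sdConJ (fun i => match i with
    | 0 => (([1, 1], []) : NmS)
    | 1 => ([1, 0], [])
    | 2 => pfx 0 a
    | 3 => pfx 0 (app B n))).congr (fun x p u => ?_)
  rw [arr_evn]
  rfl

theorem UD.conK (A B w a : NmS) (f : LF) : UD (fun x p u => Con (rgt u ([1], []))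
    (rgt u ([0], [])) (gOr (lft u (evn p a)) (f.val x (arr p A (lft u)) (arr p B (lft u))
      (lft u (evn p w)) (lft u (evn p a)) p))) := by
  refine UD.sub (F := fun x p u => f.val x (arr p A (UD.lft u)) (arr p B (UD.lft u))
      (UD.lft u (evn p w)) (UD.lft u (evn p a)) p)
    (S := fun x p u r => Con (rgt u ([1], [])) (rgt u ([0], [])) (gOr (UD.lft u (evn p a)) r))
    (UF.val f A B w a).lft ?_
  exact UD.emb sdConK (fun i => match i with
    | 0 => (([0, 1, 1], []) : NmS)
    | 1 => ([0, 1, 0], [])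
    | 2 => pfx 0 (pfx 0 a)
    | 3 => ([1], []))

theorem UD.chk (A B w a : NmS) (EJ : List (List ℕ × Option Bd)) (K : List (Option Bd × LF)) :
    UD (fun x p v => ChkU x p (arr p A v) (arr p B v) (v (evn p w)) (v (evn p a)) EJ K) := by
  have h1 : UD (fun x p u => (rgt u ([0], []) ^ 2 - UD.lft u (evn p a) ^ 2) *
      (rgt u ([0], []) ^ 2 - 9 * UD.lft u (evn p a) ^ 2) = 0) :=
    UD.emb sdSrc (fun i => match i with
      | 0 => (([1, 0], []) : NmS)
      | 1 => pfx 0 a)
  have h2 : UD (fun x p u => Cap (rgt u ([1], [])) (rgt u ([0], []))) :=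
    UD.emb (SD.cap (SF.var (0 : Fin 2)) (SF.var 1)) (fun i => match i with
      | 0 => (([1, 1], []) : NmS)
      | 1 => ([1, 0], []))
  have h3 : UD (fun x p u => AllN EJ p (fun n => Con (rgt u ([1], [])) (rgt u ([0], []))
      (gOr (UD.lft u (evn p a)) (1 / arr p B (UD.lft u) n)))) := by
    refine UD.allN EJ (Q := fun x p u n => Con (rgt u ([1], [])) (rgt u ([0], []))
      (gOr (UD.lft u (evn p a)) (1 / arr p B (UD.lft u) n))) (fun c => ?_) (fun c => ?_)
    · exact (UD.conJ B a (c, [])).congr (fun x p u => Iff.rfl)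
    · refine (UD.conJ (shn B) (shn a) (c, [Bd.var 0])).congr (fun x p u => ?_)
      rw [evn_zero, arr_sh, evn_sh]
  have h4 : UD (fun x p u => AllK x (arr p A (UD.lft u)) (arr p B (UD.lft u))
      (UD.lft u (evn p w)) (UD.lft u (evn p a)) K p
      (fun r => Con (rgt u ([1], [])) (rgt u ([0], [])) (gOr (UD.lft u (evn p a)) r))) := by
    refine UD.all_list (S := fun (e : Option Bd × LF) x p u => match e.1 with
      | none => Con (rgt u ([1], [])) (rgt u ([0], [])) (gOr (UD.lft u (evn p a))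
          (e.2.val x (arr p A (UD.lft u)) (arr p B (UD.lft u)) (UD.lft u (evn p w))
            (UD.lft u (evn p a)) p))
      | some b => ∀ i < b.ev p, Con (rgt u ([1], [])) (rgt u ([0], [])) (gOr (UD.lft u (evn p a))
          (e.2.val x (arr p A (UD.lft u)) (arr p B (UD.lft u)) (UD.lft u (evn p w))
            (UD.lft u (evn p a)) (i :: p)))) (fun e => ?_) K
    rcases e with ⟨_ | b, f⟩
    · exact UD.conK A B w a f
    · refine (UD.loop (S := fun x p u => Con (rgt u ([1], [])) (rgt u ([0], []))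
        (gOr (UD.lft u (evn p.tail a)) (f.val x (arr p.tail A (UD.lft u))
          (arr p.tail B (UD.lft u)) (UD.lft u (evn p.tail w)) (UD.lft u (evn p.tail a)) p))) b
            ?_).congr (fun x p u => Iff.rfl)
      refine (UD.conK (shn A) (shn B) (shn w) (shn a) f).congr (fun x p u => ?_)
      simp only [arr_sh, evn_sh]
  have h5 : UD (fun x p v => ∃ z : Nm → ℚ, (z ([0], []) ^ 2 - v (evn p a) ^ 2) *
      (z ([0], []) ^ 2 - 9 * v (evn p a) ^ 2) = 0 ∧ (Cap (z ([1], [])) (z ([0], [])) ∧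
      (AllN EJ p (fun n => Con (z ([1], [])) (z ([0], [])) (gOr (v (evn p a))
        (1 / arr p B v n))) ∧
      AllK x (arr p A v) (arr p B v) (v (evn p w)) (v (evn p a)) K p
        (fun r => Con (z ([1], [])) (z ([0], [])) (gOr (v (evn p a)) r))))) :=
    UD.ex (S := fun x p v z => (z ([0], []) ^ 2 - v (evn p a) ^ 2) *
      (z ([0], []) ^ 2 - 9 * v (evn p a) ^ 2) = 0 ∧ (Cap (z ([1], [])) (z ([0], [])) ∧
      (AllN EJ p (fun n => Con (z ([1], [])) (z ([0], [])) (gOr (v (evn p a))
        (1 / arr p B v n))) ∧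
      AllK x (arr p A v) (arr p B v) (v (evn p w)) (v (evn p a)) K p
        (fun r => Con (z ([1], [])) (z ([0], [])) (gOr (v (evn p a)) r)))))
      (h1.and (h2.and (h3.and h4)))
  refine h5.congr (fun x p v => ?_)
  constructor
  · rintro ⟨b, c, h⟩
    exact ⟨fun n => if n.1 = [0] then b else c, h⟩
  · rintro ⟨z, h⟩
    exact ⟨z ([0], []), z ([1], []), h⟩

/-! ### Steps -/

/-- a step -/
def StpU (x : List Bool) (p : List ℕ) (s s' : Nm → ℚ) (w : ℚ) (EI EJ : List (List ℕ × Option Bd))
    (K : List (Option Bd × LF)) : Prop :=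
  AllN EJ p (fun j => Quart (s' j)) ∧ AllN EI p (fun U => ChkU x p s s' w (s U) EJ K)

theorem UD.stp (A B w : NmS) (EI EJ : List (List ℕ × Option Bd)) (K : List (Option Bd × LF)) :
    UD (fun x p v => StpU x p (arr p A v) (arr p B v) (v (evn p w)) EI EJ K) := by
  have hq : ∀ B n : NmS, UD (fun x p v => Quart (arr p B v (evn p n))) := fun B n =>
    (UD.emb (SD.quart (SF.var (0 : Fin 1))) (fun _ => app B n)).congr (fun x p v => by
      rw [arr_evn])
  have h1 : UD (fun x p v => AllN EJ p (fun j => Quart (arr p B v j))) := by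
    refine UD.allN EJ (Q := fun x p v j => Quart (arr p B v j)) (fun c => ?_) (fun c => ?_)
    · exact (hq B (c, [])).congr (fun x p v => Iff.rfl)
    · refine (hq (shn B) (c, [Bd.var 0])).congr (fun x p v => ?_)
      rw [evn_zero, arr_sh]
  have hc : ∀ (A B w n : NmS) (EJ : List (List ℕ × Option Bd)) (K : List (Option Bd × LF)),
      UD (fun x p v => ChkU x p (arr p A v) (arr p B v) (v (evn p w)) (arr p A v (evn p n))
        EJ K) := fun A B w n EJ K =>
    (UD.chk A B w (app A n) EJ K).congr (fun x p v => by rw [arr_evn])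
  have h2 : UD (fun x p v => AllN EI p (fun U => ChkU x p (arr p A v) (arr p B v) (v (evn p w))
      (arr p A v U) EJ K)) := by
    refine UD.allN EI (Q := fun x p v U => ChkU x p (arr p A v) (arr p B v) (v (evn p w))
      (arr p A v U) EJ K) (fun c => ?_) (fun c => ?_)
    · exact (hc A B w (c, []) EJ K).congr (fun x p v => Iff.rfl)
    · refine (hc (shn A) (shn B) (shn w) (c, [Bd.var 0]) (shE EJ) (shK K)).congr
        (fun x p v => ?_)
      rw [evn_zero, chkU_sh, arr_sh, arr_sh, evn_sh]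
  exact h1.and h2

end Vale.Agent.P027.N.U
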