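import Vale.Agent.P027.N.U.Fin3

/-! The whole system in uniform form. -/

set_option linter.all false

namespace Vale.Agent.P027.N.U

open Vale.Agent.P027 Vale.Agent.P027.N UD

/-- the steps between the levels, unrolled -/
lemma lvl_iff {π : Type} (n : ℕ) (z : π → ℚ) (L : ℕ) (s : Ia n → ℚ) :
    Lvl n z L s ↔ ∃ (s0 : Ib n → ℚ) (f : ℕ → Ia n → ℚ), Bas (2 * (2 * n)) s0 ∧
      Stp (Sum.inl false) G0 z s0 (f 0) ∧ (∀ l < L, Stp (Sum.inl false) G1 z (f l) (f (l + 1))) ∧
      f L = s := by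
  induction L generalizing s with
  | zero =>
    constructor
    · rintro ⟨s0, h1, h2⟩
      exact ⟨s0, fun _ => s, h1, h2, fun l hl => absurd hl (by omega), rfl⟩
    · rintro ⟨s0, f, h1, h2, -, rfl⟩
      exact ⟨s0, h1, h2⟩
  | succ L ih =>
    constructor
    · rintro ⟨s', h1, h2⟩
      obtain ⟨s0, f, h3, h4, h5, h6⟩ := (ih s').1 h1
      refine ⟨s0, fun l => if l = L + 1 then s else f l, h3, by simpa using h4, fun l hl => ?_,
        by simp⟩
      have e1 : l ≠ L + 1 := by omega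
      simp only [e1, if_false]
      by_cases e2 : l = L
      · subst e2
        simpa [h6] using h2
      · have e3 : l + 1 ≠ L + 1 := by omega
        simp only [e3, if_false]
        exact h5 l (by omega)
    · rintro ⟨s0, f, h3, h4, h5, rfl⟩
      exact ⟨f L, (ih _).2 ⟨s0, f, h3, h4, fun l hl => h5 l (by omega), rfl⟩, h5 L (by omega)⟩

/-- the array of the base values -/
def aB : NmS := ([0], [])
/-- the array of a level -/
def aL (l : Bd) : NmS := ([1], [l])
/-- the array of the colour level -/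
def aC : NmS := ([2], [])
/-- the array of the last level -/
def aF : NmS := ([3], [])

/-- the whole system, all values in one environment -/
def SysU (nn kk Lb : Bd) (F : UFm) (x : List Bool) (p : List ℕ) (v : Nm → ℚ) : Prop :=
  (25 * arr p aB v ([], [0]) ^ 2 = 1 ∧ ∀ i < 4 * nn.ev p,
    Tri (arr p aB v ([], [i])) (arr p aB v ([], [i + 1]))) ∧
  StpU x p (arr p aB v) (arr p (aL (.const 0)) v) (v ([1, 0, 0], [0])) (EIb nn) (EIa nn) (K0 nn) ∧
  (∀ l < Lb.ev p, StpU x p (arr (l :: p) (aL (.var 0)) v)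
    (arr (l :: p) (aL (.add (.var 0) (.const 1))) v) (v ([1, 0, 0], [l + 1])) (EIa nn) (EIa nn)
      (K1 [] nn)) ∧
  StpU x p (arr p (aL Lb) v) (arr p aC v) (v ([2, 0, 0, 0], [])) (EIa nn) (EIc nn kk) (K2 nn kk) ∧
  StpU x p (arr p aC v) (arr p aF v) (v ([3], [])) (EIc nn kk) EU (K3 nn kk F)

lemma stpU_sh (x : List Bool) (p : List ℕ) (s s' : Nm → ℚ) (w : ℚ)
    (EI EJ : List (List ℕ × Option Bd)) (K : List (Option Bd × LF)) :
    StpU x p s s' w (shE EI) (shE EJ) (shK K) ↔ StpU x p.tail s s' w EI EJ K := by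
  unfold StpU
  simp only [allN_sh, chkU_sh]

def sdTri : SD (Fin 2) 400 (fun u => Tri (u 0) (u 1)) := by
  have h : SD (Fin 2) 400 (fun v => ∃ X : ℚ,
      4 * (-v 0 ^ 6 + 10 * v 0 ^ 4 + 7 * v 0 ^ 2) * X = (v 0 ^ 4 + 7) ^ 2 ∧
      (v 1 * v 0 * (X + v 0 ^ 2)) ^ 2 = (7 - X * v 0 ^ 2) ^ 2) := by
    refine SD.ex (S := fun X v => 4 * (-v 0 ^ 6 + 10 * v 0 ^ 4 + 7 * v 0 ^ 2) * X =
      (v 0 ^ 4 + 7) ^ 2 ∧ (v 1 * v 0 * (X + v 0 ^ 2)) ^ 2 = (7 - X * v 0 ^ 2) ^ 2) ?_
    have s : SF (Option (Fin 2)) 2 (fun v => v (some 0)) := SF.var (some 0)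
    have s' : SF (Option (Fin 2)) 2 (fun v => v (some 1)) := SF.var (some 1)
    have X : SF (Option (Fin 2)) 2 (fun v => v none) := SF.var none
    exact ((SD.eq (((SF.n 4).mul ((((s.pow 6).neg).add ((SF.n 10).mul (s.pow 4))).add
      ((SF.n 7).mul (s.pow 2)))).mul X) (((s.pow 4).add (SF.n 7)).pow 2)).and
      (SD.eq (((s'.mul s).mul (X.add (s.pow 2))).pow 2)
        (((SF.n 7).sub (X.mul (s.pow 2))).pow 2))).mono (by norm_num)
  exact h

theorem UD.sysU (nn kk Lb : Bd) (F : UFm) : UD (SysU nn kk Lb F) := by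
  have h1 : UD (fun x p v => 25 * arr p aB v ([], [0]) ^ 2 = 1) :=
    UD.emb (SD.eq ((SF.n 25).mul ((SF.var (0 : Fin 1)).pow 2)) SF.one)
      (fun _ => (([0], [Bd.const 0]) : NmS))
  have h2 : UD (fun x p v => ∀ i < 4 * nn.ev p,
      Tri (arr p aB v ([], [i])) (arr p aB v ([], [i + 1]))) := by
    refine (UD.loop (S := fun x p v => Tri (v ([0], [(Bd.var 0).ev p]))
      (v ([0], [(Bd.var 0).ev p + 1]))) (.mul (.const 4) nn) ?_).congr (fun x p v => Iff.rfl)
    exact UD.emb sdTri (fun i => match i with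
      | 0 => (([0], [Bd.var 0]) : NmS)
      | 1 => ([0], [.add (.var 0) (.const 1)]))
  have h3 := UD.stp aB (aL (.const 0)) ([1, 0, 0], [.const 0]) (EIb nn) (EIa nn) (K0 nn)
  have h4 : UD (fun x p v => ∀ l < Lb.ev p, StpU x p (arr (l :: p) (aL (.var 0)) v)
      (arr (l :: p) (aL (.add (.var 0) (.const 1))) v) (v ([1, 0, 0], [l + 1])) (EIa nn) (EIa nn)
      (K1 [] nn)) := by
    refine (UD.loop (S := fun x p v => StpU x p.tail (arr p (aL (.var 0)) v)
      (arr p (aL (.add (.var 0) (.const 1))) v) (v (evn p ([1, 0, 0], [.add (.var 0) (.const 1)])))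
        (EIa nn) (EIa nn) (K1 [] nn)) Lb ?_).congr (fun x p v => Iff.rfl)
    exact (UD.stp (aL (.var 0)) (aL (.add (.var 0) (.const 1)))
      ([1, 0, 0], [.add (.var 0) (.const 1)]) (shE (EIa nn)) (shE (EIa nn))
      (shK (K1 [] nn))).congr (fun x p v => by rw [stpU_sh])
  have h5 := UD.stp (aL Lb) aC ([2, 0, 0, 0], []) (EIa nn) (EIc nn kk) (K2 nn kk)
  have h6 := UD.stp aC aF ([3], []) (EIc nn kk) EU (K3 nn kk F)
  exact ((h1.and h2).and (h3.and (h4.and (h5.and h6)))).congr (fun x p v => Iff.rfl)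

/-- the two forms of the system -/
theorem sysU_iff {L k : ℕ} {nn kk Lb : Bd} {F : UFm} {x : List Bool} {p : List ℕ}
    (hL : Lb.ev p = L) (hn : nn.ev p = L + 2) (hk : kk.ev p = k + 1) (z : Fin 0 → ℚ) :
    (∃ v, SysU nn kk Lb F x p v) ↔ SysN L (F.fm x L k p) z := by
  -- the steps
  have t0 : ∀ v : Nm → ℚ, StpU x p (arr p aB v) (arr p (aL (.const 0)) v) (v ([1, 0, 0], [0]))
      (EIb nn) (EIa nn) (K0 nn) ↔ Stp (Sum.inl false) (G0 (n := L + 2)) z
        (fun i => arr p aB v (nIb i)) (fun j => arr p (aL (.const 0)) v (nIa j)) := fun v =>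
    (stp_iff (nI := nIb) (nJ := nIa) (w := (Sum.inl false : Ia (L + 2))) (arr p aB v)
      (arr p (aL (.const 0)) v) (allN_Ib hn) (allN_Ia hn) (allK_0 x hn _ _ z)).symm
  have t1 : ∀ (v : Nm → ℚ) (l : ℕ), StpU x p (arr (l :: p) (aL (.var 0)) v)
      (arr (l :: p) (aL (.add (.var 0) (.const 1))) v) (v ([1, 0, 0], [l + 1])) (EIa nn) (EIa nn)
      (K1 [] nn) ↔ Stp (Sum.inl false) (G1 (n := L + 2)) z
        (fun i => arr (l :: p) (aL (.var 0)) v (nIa i))
        (fun j => arr (l :: p) (aL (.add (.var 0) (.const 1))) v (nIa j)) := fun v l =>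
    (stp_iff (nI := nIa) (nJ := nIa) (w := (Sum.inl false : Ia (L + 2)))
      (arr (l :: p) (aL (.var 0)) v) (arr (l :: p) (aL (.add (.var 0) (.const 1))) v)
      (allN_Ia hn) (allN_Ia hn) (allK_1 x hn _ _ z)).symm
  have t2 : ∀ v : Nm → ℚ, StpU x p (arr p (aL Lb) v) (arr p aC v) (v ([2, 0, 0, 0], []))
      (EIa nn) (EIc nn kk) (K2 nn kk) ↔
      Stp (Sum.inl (Sum.inl false)) (G2 (n := L + 2) (k := k + 1)) z
        (fun i => arr p (aL Lb) v (nIa i)) (fun j => arr p aC v (nIc j)) := fun v =>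
    (stp_iff (nI := nIa) (nJ := nIc) (w := (Sum.inl (Sum.inl false) : Ic (L + 2) (k + 1)))
      (arr p (aL Lb) v) (arr p aC v) (allN_Ia hn) (allN_Ic hn hk) (allK_2 x hn hk _ _ z)).symm
  have t3 : ∀ v : Nm → ℚ, StpU x p (arr p aC v) (arr p aF v) (v ([3], []))
      (EIc nn kk) EU (K3 nn kk F) ↔ Stp () (G3 (F.fm x L k p)) z
        (fun i => arr p aC v (nIc i)) (fun j => arr p aF v (nU j)) := fun v =>
    (stp_iff (nI := nIc) (nJ := nU) (w := ()) (arr p aC v) (arr p aF v)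
      (allN_Ic hn hk) allN_U (allK_3 x hn hk _ _ z F)).symm
  have tB : ∀ v : Nm → ℚ, (25 * arr p aB v ([], [0]) ^ 2 = 1 ∧ ∀ i < 4 * nn.ev p,
      Tri (arr p aB v ([], [i])) (arr p aB v ([], [i + 1]))) ↔
      Bas (2 * (2 * (L + 2))) (fun i => arr p aB v (nIb i)) := by
    intro v
    unfold Bas
    rw [hn, show 4 * (L + 2) = 2 * (2 * (L + 2)) by ring]
    refine and_congr Iff.rfl ?_
    exact fin_all (fun i => Tri (arr p aB v ([], [i])) (arr p aB v ([], [i + 1])))
  constructor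
  · rintro ⟨v, hB, h0, h1, h2, h3⟩
    refine ⟨fun i => arr p (aL Lb) v (nIa i), ?_, fun i => arr p aC v (nIc i), (t2 v).1 h2,
      fun i => arr p aF v (nU i), (t3 v).1 h3⟩
    rw [lvl_iff]
    refine ⟨fun i => arr p aB v (nIb i), fun l i => v (1 :: (nIa i).1, l :: (nIa i).2),
      (tB v).1 hB, (t0 v).1 h0, fun l hl => (t1 v l).1 (h1 l (by rw [hL]; exact hl)), ?_⟩
    funext i
    simp only [arr, aL, List.map_cons, List.map_nil, hL, List.cons_append, List.nil_append]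
  · rintro ⟨s, hs, s', h2, s'', h3⟩
    obtain ⟨s0, f, hB, h0, h1, rfl⟩ := (lvl_iff _ _ _ _).1 hs
    classical
    let v : Nm → ℚ := fun n => match n.1 with
      | 0 :: c => Function.extend nIb s0 0 (c, n.2)
      | 1 :: c => (match n.2 with
        | l :: a => Function.extend nIa (f l) 0 (c, a)
        | [] => 0)
      | 2 :: c => Function.extend nIc s' 0 (c, n.2)
      | 3 :: c => s'' ()
      | _ => 0
    have eB : (fun i => arr p aB v (nIb i)) = s0 := by
      funext i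
      show Function.extend nIb s0 0 (nIb i) = s0 i
      exact nIb_inj.extend_apply _ _ _
    have eL : ∀ (q : List ℕ) (b : Bd), (fun i => arr q (aL b) v (nIa i)) = f (b.ev q) := by
      intro q b
      funext i
      show Function.extend nIa (f (b.ev q)) 0 (nIa i) = f (b.ev q) i
      exact nIa_inj.extend_apply _ _ _
    have eC : (fun i => arr p aC v (nIc i)) = s' := by
      funext i
      show Function.extend nIc s' 0 (nIc i) = s' i
      exact nIc_inj.extend_apply _ _ _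
    have eF : (fun i => arr p aF v (nU i)) = s'' := by
      funext i
      rfl
    refine ⟨v, (tB v).2 ?_, (t0 v).2 ?_, fun l hl => (t1 v l).2 ?_, (t2 v).2 ?_, (t3 v).2 ?_⟩
    · rw [eB]; exact hB
    · rw [eB, eL]; exact h0
    · rw [eL, eL]; exact h1 l (by rw [← hL]; exact hl)
    · rw [eL, eC, hL]; exact h2
    · rw [eC, eF]; exact h3

end Vale.Agent.P027.N.U
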