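import Vale.Agent.P027.N.U.Lang
import Vale.Agent.P027.H833.Bf

/-! Uniform formulas: query formulas of oracle problems written with big conjunctions and
disjunctions over counters. -/

set_option linter.all false

namespace Vale.Agent.P027.N.U

open Vale.Agent.P027 Vale.Agent.P027.N

/-- uniform formulas: `lb t j v`: bit number `j` of the name `t` is `v`; `la t c v`: bit number `c`
of the answer `t` is `v` -/
inductive UFm : Type
  | lb (t : Bool) (j : Bd) (v : Bool)
  | la (t : Bool) (c : Bd) (v : Bool)
  | and (f g : UFm)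
  | or (f g : UFm)
  | all (b : Bd) (f : UFm)
  | any (b : Bd) (f : UFm)
  | bind (b : Bd) (f : UFm)
  | ite (c : Cnd) (f g : UFm)

/-- a position, with zero instead of positions out of range -/
def clamp (n j : ℕ) : Fin (n + 1) := if h : j < n + 1 then ⟨j, h⟩ else 0

/-- the formula for the input word `x` and the counters `p`; names of length `L + 2`, answers of
length `k + 1` -/
def UFm.fm (x : List Bool) (L k : ℕ) : UFm → List ℕ → Fm (Vr 0 (L + 2) (k + 1) × Bool)
  | .lb t j v, p => .lit (.b t (clamp (L + 1) (j.ev p)), v)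
  | .la t c v, p => .lit (.a t (clamp k (c.ev p)), v)
  | .and f g, p => .and (f.fm x L k p) (g.fm x L k p)
  | .or f g, p => .or (f.fm x L k p) (g.fm x L k p)
  | .all b f, p => bAnd (.b false 0) ((List.range (b.ev p)).map (fun i => f.fm x L k (i :: p)))
  | .any b f, p => bOr (.b false 0) ((List.range (b.ev p)).map (fun i => f.fm x L k (i :: p)))
  | .bind b f, p => f.fm x L k (b.ev p :: p)
  | .ite c f g, p => if c.ev x p then f.fm x L k p else g.fm x L k p

/-- module U4: the generator of the system -/
def StGen : Prop := ∀ (F : UFm) (Lb : Bd) (k : ℕ), ∃ g : Gen, ∀ x : List Bool,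
  (∃ y : ℕ → ℚ, ∀ e ∈ g.out x, e.Holds y) ↔
    Orc (F.fm x (Lb.ev [x.length]) k [x.length]) (Fin.elim0 : Fin 0 → Bool)

end Vale.Agent.P027.N.U
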