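import Vale.Agent.P027.N.U.Stu
import Vale.Agent.P027.N.U.Ufm

/-! Names for the typed indices of the chain; the constraints as uniform formulas. -/

set_option linter.all false

namespace Vale.Agent.P027.N.U

open Vale.Agent.P027 Vale.Agent.P027.N UD

/-! ### Names of indices -/

/-- names of level indices -/
def nIa {n : ℕ} : Ia n → Nm
  | .inl b => ([0, b.toNat], [])
  | .inr (t, v, j) => ([1, t.toNat, v.toNat], [(j : ℕ)])

/-- names of base indices -/
def nIb {n : ℕ} (e : Ib n) : Nm := ([], [(e : ℕ)])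

/-- names of indices of the colour level -/
def nIc {n k : ℕ} : Ic n k → Nm
  | .inl a => (0 :: (nIa a).1, (nIa a).2)
  | .inr (t, v, c) => ([1, t.toNat, v.toNat], [(c : ℕ)])

def nU (u : Unit) : Nm := ([], [])

lemma toNat_inj {a b : Bool} (h : a.toNat = b.toNat) : a = b := by
  cases a <;> cases b <;> simp_all

lemma nIa_inj {n : ℕ} : Function.Injective (nIa (n := n)) := by
  rintro (a | ⟨t, v, j⟩) (b | ⟨t', v', j'⟩) h
  · simp only [nIa, Prod.mk.injEq, List.cons.injEq, and_true, true_and] at h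
    rw [toNat_inj h]
  · simp [nIa] at h
  · simp [nIa] at h
  · simp only [nIa, Prod.mk.injEq, List.cons.injEq, and_true, true_and] at h
    obtain ⟨⟨h1, h2⟩, h3⟩ := h
    rw [toNat_inj h1, toNat_inj h2, Fin.ext h3]

lemma nIb_inj {n : ℕ} : Function.Injective (nIb (n := n)) := by
  intro a b h
  simp only [nIb, Prod.mk.injEq, List.cons.injEq, and_true, true_and] at h
  exact Fin.ext h

lemma nIc_inj {n k : ℕ} : Function.Injective (nIc (n := n) (k := k)) := by
  rintro (a | ⟨t, v, j⟩) (b | ⟨t', v', j'⟩) h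
  · simp only [nIc, Prod.mk.injEq, List.cons.injEq, true_and] at h
    rw [nIa_inj (Prod.ext h.1 h.2)]
  · simp [nIc] at h
  · simp [nIc] at h
  · simp only [nIc, Prod.mk.injEq, List.cons.injEq, and_true, true_and] at h
    obtain ⟨⟨h1, h2⟩, h3⟩ := h
    rw [toNat_inj h1, toNat_inj h2, Fin.ext h3]

lemma nU_inj : Function.Injective nU := fun _ _ _ => rfl

/-! ### Families of names -/

def EIa (nn : Bd) : List (List ℕ × Option Bd) :=
  [([0, 0], none), ([0, 1], none), ([1, 0, 0], some nn), ([1, 0, 1], some nn),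
    ([1, 1, 0], some nn), ([1, 1, 1], some nn)]

def EIb (nn : Bd) : List (List ℕ × Option Bd) :=
  [([], some (.add (.mul (.const 4) nn) (.const 1)))]

def EIc (nn kk : Bd) : List (List ℕ × Option Bd) :=
  [([0, 0, 0], none), ([0, 0, 1], none), ([0, 1, 0, 0], some nn), ([0, 1, 0, 1], some nn),
    ([0, 1, 1, 0], some nn), ([0, 1, 1, 1], some nn), ([1, 0, 0], some kk), ([1, 0, 1], some kk),
    ([1, 1, 0], some kk), ([1, 1, 1], some kk)]

def EU : List (List ℕ × Option Bd) := [([], none)]

lemma fin_all {n : ℕ} (P : ℕ → Prop) : (∀ j < n, P j) ↔ ∀ j : Fin n, P j :=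
  ⟨fun h j => h j j.2, fun h j hj => h ⟨j, hj⟩⟩

lemma allN_Ia {n : ℕ} {nn : Bd} {p : List ℕ} (hn : nn.ev p = n) (P : Nm → Prop) :
    AllN (EIa nn) p P ↔ ∀ i : Ia n, P (nIa i) := by
  simp only [AllN, EIa, List.forall_mem_cons, List.not_mem_nil, false_imp_iff, implies_true,
    and_true, hn, Sum.forall, Prod.forall, Bool.forall_bool, nIa, Bool.toNat_false,
    Bool.toNat_true]
  rw [fin_all (n := n) (fun i => P ([1, 0, 0], [i])), fin_all (n := n) (fun i => P ([1, 0, 1], [i])),
    fin_all (n := n) (fun i => P ([1, 1, 0], [i])), fin_all (n := n) (fun i => P ([1, 1, 1], [i]))]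
  tauto

lemma allN_Ib {n : ℕ} {nn : Bd} {p : List ℕ} (hn : nn.ev p = n) (P : Nm → Prop) :
    AllN (EIb nn) p P ↔ ∀ i : Ib n, P (nIb i) := by
  have e : 4 * n + 1 = 2 * (2 * n) + 1 := by ring
  simp only [AllN, EIb, List.forall_mem_cons, List.not_mem_nil, false_imp_iff, implies_true,
    and_true, Bd.ev, hn, nIb]
  rw [fin_all, e]

lemma allN_Ic {n k : ℕ} {nn kk : Bd} {p : List ℕ} (hn : nn.ev p = n) (hk : kk.ev p = k)
    (P : Nm → Prop) : AllN (EIc nn kk) p P ↔ ∀ i : Ic n k, P (nIc i) := by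
  simp only [AllN, EIc, List.forall_mem_cons, List.not_mem_nil, false_imp_iff, implies_true,
    and_true, hn, hk, Sum.forall, Prod.forall, Bool.forall_bool, nIc, nIa, Bool.toNat_false,
    Bool.toNat_true]
  rw [fin_all (n := n) (fun i => P ([0, 1, 0, 0], [i])),
    fin_all (n := n) (fun i => P ([0, 1, 0, 1], [i])),
    fin_all (n := n) (fun i => P ([0, 1, 1, 0], [i])),
    fin_all (n := n) (fun i => P ([0, 1, 1, 1], [i])),
    fin_all (n := k) (fun i => P ([1, 0, 0], [i])), fin_all (n := k) (fun i => P ([1, 0, 1], [i])),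
    fin_all (n := k) (fun i => P ([1, 1, 0], [i])), fin_all (n := k) (fun i => P ([1, 1, 1], [i]))]
  tauto

lemma allN_U {p : List ℕ} (P : Nm → Prop) : AllN EU p P ↔ ∀ i : Unit, P (nU i) := by
  simp [AllN, EU, nU]

/-! ### Values of formulas -/

lemma val_map {α β : Type} (f : α → β) (t : β → ℚ) (g : Fm α) :
    (g.map f).val t = g.val (fun a => t (f a)) := by
  induction g with
  | lit a => rfl
  | and g h ihg ihh => simp only [Fm.map, Fm.val, ihg, ihh]
  | or g h ihg ihh => simp only [Fm.map, Fm.val, ihg, ihh]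

lemma val_foldr_or {α : Type} (t : α → ℚ) (z : Fm α) (l : List (Fm α)) :
    (l.foldr Fm.or z).val t = (l.map (fun f => f.val t)).foldr gOr (z.val t) := by
  induction l with
  | nil => rfl
  | cons f l ih => simp only [List.foldr_cons, Fm.val, List.map_cons, ih]

lemma val_foldr_and {α : Type} (t : α → ℚ) (z : Fm α) (l : List (Fm α)) :
    (l.foldr Fm.and z).val t = (l.map (fun f => f.val t)).foldr gAnd (z.val t) := by
  induction l with
  | nil => rfl
  | cons f l ih => simp only [List.foldr_cons, Fm.val, List.map_cons, ih]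

lemma finRange_map {β : Type} (n : ℕ) (f : Fin n → β) (g : ℕ → β) (h : ∀ j : Fin n, f j = g j) :
    (List.finRange n).map f = (List.range n).map g := by
  rw [← List.map_coe_finRange_eq_range, List.map_map]
  exact List.map_congr_left (fun j _ => h j)

/-! ### Steps -/

/-- the typed and the uniform step -/
theorem stp_iff {I J κ π : Type} {nI : I → Nm} {nJ : J → Nm} {x : List Bool} {p : List ℕ}
    {EI EJ : List (List ℕ × Option Bd)} {K : List (Option Bd × LF)} {w : J}
    {G : κ → Fm (Lit I J π)} {z : π → ℚ} (S S' : Nm → ℚ)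
    (hI : ∀ P, AllN EI p P ↔ ∀ i, P (nI i)) (hJ : ∀ P, AllN EJ p P ↔ ∀ j, P (nJ j))
    (hK : ∀ U P, AllK x S S' (S' (nJ w)) (S (nI U)) K p P ↔
      ∀ c, P ((G c).val (litV (fun i => S (nI i)) (fun j => S' (nJ j)) w U z))) :
    Stp w G z (fun i => S (nI i)) (fun j => S' (nJ j)) ↔
      StpU x p S S' (S' (nJ w)) EI EJ K := by
  have hc : ∀ U, Chk (S (nI U)) (Sum.elim (fun j => 1 / S' (nJ j))
      (fun c => (G c).val (litV (fun i => S (nI i)) (fun j => S' (nJ j)) w U z))) ↔
      ChkU x p S S' (S' (nJ w)) (S (nI U)) EJ K := by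
    intro U
    unfold Chk ChkU
    refine exists_congr (fun b => exists_congr (fun a => and_congr Iff.rfl (and_congr Iff.rfl ?_)))
    rw [Sum.forall, hJ, hK]
    rfl
  unfold StpU
  rw [hI, hJ]
  constructor
  · intro h
    exact ⟨h.quart, fun U => (hc U).1 (h.chk U)⟩
  · rintro ⟨h1, h2⟩
    exact ⟨h1, fun U => (hc U).2 (h2 U)⟩

/-! ### The constraints -/

/-- name of a letter in a level -/
def lv (t v : Bool) (b : Bd) : NmS := ([1, t.toNat, v.toNat], [b])

/-- base index of a letter -/
def be (nn : Bd) (t v : Bool) (j : Bd) : Bd :=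
  .add j (.add (.mul nn (.const v.toNat)) (.mul (.mul (.const 2) nn) (.const t.toNat)))

lemma eL_val {n : ℕ} (t v : Bool) (j : Fin n) :
    ((eL n (t, v, j) : Fin (2 * (2 * n))) : ℕ) = j + (n * v.toNat + 2 * n * t.toNat) := by
  cases t <;> cases v <;> simp [eL, finProdFinEquiv, finTwoEquiv] <;> ring

def bools2 : List (Bool × Bool) := [(false, false), (false, true), (true, false), (true, true)]

lemma mem_bools2 (a : Bool × Bool) : a ∈ bools2 := by
  rcases a with ⟨_ | _, _ | _⟩ <;> simp [bools2]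

/-- constraints of the step from the base -/
def K0 (nn : Bd) : List (Option Bd × LF) :=
  (none, .one ([0, 1], [])) :: bools2.map (fun a => (some nn,
    .or (.and (.one (lv a.1 a.2 (.var 0)))
        (.or (.nrd ([], [.add (be nn.sh a.1 a.2 (.var 0)) (.const 1)]))
          (.rd ([], [be nn.sh a.1 a.2 (.var 0)]))))
      (.and (.zero (lv a.1 a.2 (.var 0)))
        (.and (.rd ([], [.add (be nn.sh a.1 a.2 (.var 0)) (.const 1)]))
          (.nrd ([], [be nn.sh a.1 a.2 (.var 0)]))))))

lemma allK_0 {n : ℕ} {nn : Bd} {π : Type} (x : List Bool) {p : List ℕ} (hn : nn.ev p = n)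
    (S S' : Nm → ℚ) (z : π → ℚ) (U : Ib n) (P : ℚ → Prop) :
    AllK x S S' (S' (nIa (n := n) (.inl false))) (S (nIb U)) (K0 nn) p P ↔
      ∀ c, P ((G0 (π := π) c).val (litV (fun i => S (nIb i)) (fun j => S' (nIa j))
        (.inl false) U z)) := by
  have e : ∀ (t v : Bool) (i : ℕ) (hi : i < n),
      (LF.val x S S' (S' (nIa (n := n) (.inl false))) (S (nIb U))
        (.or (.and (.one (lv t v (.var 0)))
        (.or (.nrd ([], [.add (be nn.sh t v (.var 0)) (.const 1)]))
          (.rd ([], [be nn.sh t v (.var 0)]))))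
      (.and (.zero (lv t v (.var 0)))
        (.and (.rd ([], [.add (be nn.sh t v (.var 0)) (.const 1)]))
          (.nrd ([], [be nn.sh t v (.var 0)]))))) (i :: p)) =
      (G0 (π := π) (some (t, v, ⟨i, hi⟩))).val (litV (fun i => S (nIb i)) (fun j => S' (nIa j))
        (.inl false) U z) := by
    intro t v i hi
    have h1 : S (nIb (n := n) (eL n (t, v, ⟨i, hi⟩)).succ) =
        S (evn (i :: p) ([], [.add (be nn.sh t v (.var 0)) (.const 1)])) := by
      congr 1
      simp only [nIb, evn, Fin.val_succ, eL_val, List.map_cons, List.map_nil, Bd.ev, be,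
        Bd.ev_sh, List.tail_cons, hn, List.getD_cons_zero]
    have h2 : S (nIb (n := n) (eL n (t, v, ⟨i, hi⟩)).castSucc) =
        S (evn (i :: p) ([], [be nn.sh t v (.var 0)])) := by
      congr 1
      simp only [nIb, evn, Fin.val_castSucc, eL_val, List.map_cons, List.map_nil, Bd.ev, be,
        Bd.ev_sh, List.tail_cons, hn, List.getD_cons_zero]
    simp only [LF.val, G0, gIn, gNin, Fm.val, litV, h1, h2]
    rfl
  have h0 : LF.val x S S' (S' (nIa (n := n) (.inl false))) (S (nIb U)) (.one ([0, 1], [])) p =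
      (G0 (n := n) (π := π) none).val (litV (fun i => S (nIb i)) (fun j => S' (nIa j))
        (.inl false) U z) := rfl
  simp only [AllK, K0, List.forall_mem_cons, List.forall_mem_map]
  rw [Option.forall, h0]
  refine and_congr Iff.rfl ?_
  constructor
  · rintro h ⟨t, v, j⟩
    have := h (t, v) (mem_bools2 _) j (by rw [hn]; exact j.2)
    rwa [e t v j j.2] at this
  · rintro h ⟨t, v⟩ _ i hi
    rw [hn] at hi
    rw [e t v i hi]
    exact h _

/-- constraints of the steps between levels; `i` is the prefix of the new names -/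
def K1 (i : List ℕ) (nn : Bd) : List (Option Bd × LF) :=
  (none, .one (i ++ [0, 1], [])) :: bools2.map (fun a => (some nn,
    .or (.and (.one (i ++ (lv a.1 a.2 (.var 0)).1, (lv a.1 a.2 (.var 0)).2))
        (.rd (lv a.1 a.2 (.var 0))))
      (.and (.zero (i ++ (lv a.1 a.2 (.var 0)).1, (lv a.1 a.2 (.var 0)).2))
        (.nrd (lv a.1 a.2 (.var 0))))))

lemma allK_1 {n : ℕ} {nn : Bd} {π : Type} (x : List Bool) {p : List ℕ} (hn : nn.ev p = n)
    (S S' : Nm → ℚ) (z : π → ℚ) (U : Ia n) (P : ℚ → Prop) :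
    AllK x S S' (S' (nIa (n := n) (.inl false))) (S (nIa U)) (K1 [] nn) p P ↔
      ∀ c, P ((G1 (π := π) c).val (litV (fun i => S (nIa i)) (fun j => S' (nIa j))
        (.inl false) U z)) := by
  simp only [AllK, K1, List.forall_mem_cons, List.forall_mem_map]
  rw [Option.forall]
  refine and_congr Iff.rfl ?_
  constructor
  · rintro h ⟨t, v, j⟩
    exact h (t, v) (mem_bools2 _) j (by rw [hn]; exact j.2)
  · rintro h ⟨t, v⟩ _ i hi
    rw [hn] at hi
    exact h (t, v, ⟨i, hi⟩)

/-- the unread letters are not a name; `i` is the prefix of the names -/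
def lNv (i : List ℕ) (nn : Bd) (t : Bool) : LF :=
  .any nn (.or (.and (.nrd (i ++ [1, t.toNat, 0], [.var 0])) (.nrd (i ++ [1, t.toNat, 1], [.var 0])))
      (.and (.rd (i ++ [1, t.toNat, 0], [.var 0])) (.rd (i ++ [1, t.toNat, 1], [.var 0]))))
    (.and (.rd (i ++ [0, 1], [])) (.nrd (i ++ [0, 1], [])))

/-- constraints of the step to the colours -/
def K2 (nn kk : Bd) : List (Option Bd × LF) :=
  K1 [0] nn ++ [false, true].map (fun t => (some kk, .or (lNv [] nn.sh t)
    (.or (.zero ([1, t.toNat, 0], [.var 0])) (.zero ([1, t.toNat, 1], [.var 0])))))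

lemma allK_append (x : List Bool) (s s' : Nm → ℚ) (w a : ℚ) (K K' : List (Option Bd × LF))
    (p : List ℕ) (P : ℚ → Prop) : AllK x s s' w a (K ++ K') p P ↔
      AllK x s s' w a K p P ∧ AllK x s s' w a K' p P := by
  unfold AllK
  rw [List.forall_mem_append]

lemma val_Nv {n k : ℕ} {nn : Bd} {π J : Type} (x : List Bool) {p : List ℕ} (hn : nn.ev p = n)
    (S S' : Nm → ℚ) (w : ℚ) (s' : J → ℚ) (wJ : J) (z : π → ℚ) (U : Ia n) (t : Bool) :
    (lNv [] nn t).val x S S' w (S (nIa U)) p =
      (gNv (J := J) (π := π) Sum.inr (.inl true) t).val (litV (fun i => S (nIa i)) s' wJ U z) := by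
  rw [gNv, lOr, val_foldr_or, List.map_map]
  subst hn
  refine congrArg₂ (fun (z : ℚ) (l : List ℚ) => List.foldr gOr z l) rfl ?_
  exact (finRange_map _ _ _ (fun j => rfl)).symm

lemma allK_2 {n k : ℕ} {nn kk : Bd} {π : Type} (x : List Bool) {p : List ℕ} (hn : nn.ev p = n)
    (hk : kk.ev p = k) (S S' : Nm → ℚ) (z : π → ℚ) (U : Ia n) (P : ℚ → Prop) :
    AllK x S S' (S' (nIc (n := n) (k := k) (.inl (.inl false)))) (S (nIa U)) (K2 nn kk) p P ↔
      ∀ c, P ((G2 (k := k) (π := π) c).val (litV (fun i => S (nIa i)) (fun j => S' (nIc j))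
        (.inl (.inl false)) U z)) := by
  unfold K2
  rw [allK_append, Sum.forall]
  refine and_congr ?_ ?_
  · simp only [AllK, K1, List.forall_mem_cons, List.forall_mem_map]
    rw [Option.forall]
    refine and_congr Iff.rfl ?_
    constructor
    · rintro h ⟨t, v, j⟩
      exact h (t, v) (mem_bools2 _) j (by rw [hn]; exact j.2)
    · rintro h ⟨t, v⟩ _ i hi
      rw [hn] at hi
      exact h (t, v, ⟨i, hi⟩)
  · have e : ∀ (t : Bool) (i : ℕ) (hi : i < k),
        LF.val x S S' (S' (nIc (n := n) (k := k) (.inl (.inl false)))) (S (nIa U))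
          (.or (lNv [] nn.sh t)
            (.or (.zero ([1, t.toNat, 0], [.var 0])) (.zero ([1, t.toNat, 1], [.var 0]))))
          (i :: p) = (G2 (k := k) (π := π) (.inr (t, ⟨i, hi⟩))).val (litV (fun i => S (nIa i))
            (fun j => S' (nIc j)) (.inl (.inl false)) U z) := by
      intro t i hi
      have h1 := val_Nv (n := n) (k := k) (nn := nn.sh) (π := π) (J := Ic n k) x (p := i :: p)
        (by rw [Bd.ev_sh]; exact hn) S S'
        (S' (nIc (n := n) (k := k) (.inl (.inl false)))) (fun j => S' (nIc j))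
        (.inl (.inl false)) z U t
      simp only [LF.val, G2, Fm.val]
      rw [h1]
      rfl
    simp only [AllK, List.forall_mem_map]
    constructor
    · rintro h ⟨t, j⟩
      have := h t (by cases t <;> simp) j (by rw [hk]; exact j.2)
      rwa [e t j j.2] at this
    · rintro h t _ i hi
      rw [hk] at hi
      rw [e t i hi]
      exact h (t, ⟨i, hi⟩)

end Vale.Agent.P027.N.U
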