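import Vale.Agent.P027.N.U.Lang
import Vale.Agent.P027.N.Siz

/-! Uniform Diophantine families: predicates depending on an input word and on counters, given by a
program with structured names of the unknowns. -/

set_option linter.all false

namespace Vale.Agent.P027.N.U

open Vale.Agent.P027 Vale.Agent.P027.N

/-- shift of the counters by one, above the first `d` -/
def Bd.shc (d : ℕ) : Bd → Bd
  | .const c => .const c
  | .var i => .var (if i < d then i else i + 1)
  | .add a b => .add (a.shc d) (b.shc d)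
  | .mul a b => .mul (a.shc d) (b.shc d)

/-- shift -/
abbrev Bd.sh (b : Bd) : Bd := b.shc 0

lemma Bd.ev_shc {d : ℕ} {q : List ℕ} (hq : q.length = d) (p : List ℕ) (b : Bd) :
    (b.shc d).ev (q ++ p) = b.ev (q ++ p.tail) := by
  induction b with
  | const c => rfl
  | var i =>
    simp only [Bd.shc, Bd.ev]
    split_ifs with h
    · rw [List.getD_append _ _ _ _ (by omega), List.getD_append _ _ _ _ (by omega)]
    · rw [List.getD_append_right _ _ _ _ (by omega), List.getD_append_right _ _ _ _ (by omega)]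
      cases p with
      | nil => simp
      | cons a p =>
        rw [show i + 1 - q.length = (i - q.length) + 1 by omega]
        simp
  | add a b iha ihb => simp only [Bd.shc, Bd.ev, iha, ihb]
  | mul a b iha ihb => simp only [Bd.shc, Bd.ev, iha, ihb]

@[simp] lemma Bd.ev_sh (p : List ℕ) (b : Bd) : b.sh.ev p = b.ev p.tail :=
  Bd.ev_shc (q := []) rfl p b

def Cnd.shc (d : ℕ) : Cnd → Cnd
  | .lt a b => .lt (a.shc d) (b.shc d)
  | .bit a => .bit (a.shc d)
  | .tb a b => .tb (a.shc d) (b.shc d)

lemma Cnd.ev_shc {d : ℕ} {q : List ℕ} (hq : q.length = d) (x : List Bool) (p : List ℕ) (c : Cnd) :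
    (c.shc d).ev x (q ++ p) = c.ev x (q ++ p.tail) := by
  cases c <;> simp only [Cnd.shc, Cnd.ev, Bd.ev_shc hq]

/-- names: a constant tag and arguments -/
abbrev Nm : Type := List ℕ × List ℕ

/-- syntactic names -/
abbrev NmS : Type := List ℕ × List Bd

/-- value of a name -/
def evn (p : List ℕ) (a : NmS) : Nm := (a.1, a.2.map (Bd.ev p))

def NmS.shc (d : ℕ) (a : NmS) : NmS := (a.1, a.2.map (Bd.shc d))

lemma evn_shc {d : ℕ} {q : List ℕ} (hq : q.length = d) (p : List ℕ) (a : NmS) :
    evn (q ++ p) (NmS.shc d a) = evn (q ++ p.tail) a := by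
  simp only [evn, NmS.shc, List.map_map, Prod.mk.injEq, true_and]
  refine List.map_congr_left (fun b _ => ?_)
  exact Bd.ev_shc hq p b

/-- programs with structured names; left: free names, right: unknowns -/
inductive Pg : Type
  | nil
  | emit (e : Eqn (NmS ⊕ NmS))
  | seq (g h : Pg)
  | loop (b : Bd) (g : Pg)
  | bind (b : Bd) (g : Pg)
  | ite (c : Cnd) (g h : Pg)

def Pg.run (x : List Bool) : Pg → List ℕ → List (Eqn (Nm ⊕ Nm))
  | .nil, _ => []
  | .emit e, p => [e.map (Sum.map (evn p) (evn p))]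
  | .seq g h, p => g.run x p ++ h.run x p
  | .loop b g, p => (List.range (b.ev p)).flatMap (fun i => g.run x (i :: p))
  | .bind b g, p => g.run x (b.ev p :: p)
  | .ite c g h, p => if c.ev x p then g.run x p else h.run x p

lemma Eqn.map_map {α β γ : Type} (f : α → β) (g : β → γ) (e : Eqn α) :
    (e.map f).map g = e.map (fun a => g (f a)) := by cases e <;> rfl

lemma Eqn.map_congr {α β : Type} {f g : α → β} (h : ∀ a, f a = g a) (e : Eqn α) :
    e.map f = e.map g := by
  rw [show f = g from funext h]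

/-! ### Renaming of tags -/

def tgS {β : Type} (f : List ℕ ⊕ List ℕ → List ℕ ⊕ List ℕ) :
    (List ℕ × β) ⊕ (List ℕ × β) → (List ℕ × β) ⊕ (List ℕ × β)
  | .inl n => match f (.inl n.1) with
    | .inl c => .inl (c, n.2)
    | .inr c => .inr (c, n.2)
  | .inr n => match f (.inr n.1) with
    | .inl c => .inl (c, n.2)
    | .inr c => .inr (c, n.2)

lemma tgS_ev (f : List ℕ ⊕ List ℕ → List ℕ ⊕ List ℕ) (p : List ℕ) (n : NmS ⊕ NmS) :
    Sum.map (evn p) (evn p) (tgS f n) = tgS f (Sum.map (evn p) (evn p) n) := by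
  rcases n with n | n
  · simp only [tgS, Sum.map_inl, evn]
    rcases f (.inl n.1) with c | c <;> rfl
  · simp only [tgS, Sum.map_inr, evn]
    rcases f (.inr n.1) with c | c <;> rfl

def Pg.rn (f : List ℕ ⊕ List ℕ → List ℕ ⊕ List ℕ) : Pg → Pg
  | .nil => .nil
  | .emit e => .emit (e.map (tgS f))
  | .seq g h => .seq (g.rn f) (h.rn f)
  | .loop b g => .loop b (g.rn f)
  | .bind b g => .bind b (g.rn f)
  | .ite c g h => .ite c (g.rn f) (h.rn f)

lemma Pg.run_rn (f : List ℕ ⊕ List ℕ → List ℕ ⊕ List ℕ) (x : List Bool) (g : Pg) (p : List ℕ) :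
    (g.rn f).run x p = (g.run x p).map (Eqn.map (tgS f)) := by
  induction g generalizing p with
  | nil => rfl
  | emit e =>
    simp only [Pg.rn, Pg.run, List.map_cons, List.map_nil, Eqn.map_map, List.cons.injEq, and_true]
    exact Eqn.map_congr (fun a => tgS_ev f p a) e
  | seq g h ihg ihh => simp only [Pg.rn, Pg.run, ihg, ihh, List.map_append]
  | loop b g ih => simp only [Pg.rn, Pg.run, ih, List.map_flatMap]
  | bind b g ih => simp only [Pg.rn, Pg.run, ih]
  | ite c g h ihg ihh =>
    simp only [Pg.rn, Pg.run, ihg, ihh]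
    split_ifs <;> rfl

/-! ### A further argument of the unknowns -/

def paS {β : Type} (b : β) :
    (List ℕ × List β) ⊕ (List ℕ × List β) → (List ℕ × List β) ⊕ (List ℕ × List β)
  | .inl n => .inl n
  | .inr n => .inr (n.1, b :: n.2)

def Pg.pre : Bd → Pg → Pg
  | _, .nil => .nil
  | b, .emit e => .emit (e.map (paS b))
  | b, .seq g h => .seq (Pg.pre b g) (Pg.pre b h)
  | b, .loop B g => .loop B (Pg.pre b.sh g)
  | b, .bind B g => .bind B (Pg.pre b.sh g)
  | b, .ite c g h => .ite c (Pg.pre b g) (Pg.pre b h)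

lemma Pg.run_pre (x : List Bool) (g : Pg) (b : Bd) (p : List ℕ) :
    (Pg.pre b g).run x p = (g.run x p).map (Eqn.map (paS (b.ev p))) := by
  induction g generalizing p b with
  | nil => rfl
  | emit e =>
    simp only [Pg.pre, Pg.run, List.map_cons, List.map_nil, Eqn.map_map, List.cons.injEq, and_true]
    exact Eqn.map_congr (fun a => by rcases a with a | a <;> rfl) e
  | seq g h ihg ihh => simp only [Pg.pre, Pg.run, ihg, ihh, List.map_append]
  | loop B g ih => simp only [Pg.pre, Pg.run, ih, List.map_flatMap, Bd.ev_sh, List.tail_cons]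
  | bind B g ih => simp only [Pg.pre, Pg.run, ih, Bd.ev_sh, List.tail_cons]
  | ite c g h ihg ihh =>
    simp only [Pg.pre, Pg.run, ihg, ihh]
    split_ifs <;> rfl

/-! ### Uniform families -/

/-- `S` is given by a program -/
def UD (S : List Bool → List ℕ → (Nm → ℚ) → Prop) : Prop :=
  ∃ g : Pg, ∀ x p v, S x p v ↔ ∃ y : Nm → ℚ, ∀ e ∈ g.run x p, e.Holds (Sum.elim v y)

namespace UD

variable {S T : List Bool → List ℕ → (Nm → ℚ) → Prop}

theorem congr (h : UD S) (e : ∀ x p v, T x p v ↔ S x p v) : UD T := by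
  obtain ⟨g, hg⟩ := h
  exact ⟨g, fun x p v => (e x p v).trans (hg x p v)⟩

theorem triv : UD (fun _ _ _ => True) := ⟨.nil, fun x p v => by simp [Pg.run]⟩

/-- the tags of the two parts of a conjunction -/
def andT (i : ℕ) : List ℕ ⊕ List ℕ → List ℕ ⊕ List ℕ
  | .inl c => .inl c
  | .inr c => .inr (i :: c)

theorem and (hS : UD S) (hT : UD T) : UD (fun x p v => S x p v ∧ T x p v) := by
  obtain ⟨g, hg⟩ := hS
  obtain ⟨h, hh⟩ := hT
  refine ⟨.seq (g.rn (andT 0)) (h.rn (andT 1)), fun x p v => ?_⟩
  beta_reduce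
  rw [hg, hh]
  simp only [Pg.run, Pg.run_rn, List.mem_append]
  constructor
  · rintro ⟨⟨y, hy⟩, z, hz⟩
    refine ⟨fun n => match n.1 with
      | 0 :: c => y (c, n.2)
      | 1 :: c => z (c, n.2)
      | _ => 0, ?_⟩
    rintro e (he | he)
    · obtain ⟨e', he', rfl⟩ := List.mem_map.1 he
      rw [Eqn.holds_map]
      refine (Eqn.holds_congr e' ?_).1 (hy e' he')
      funext n; rcases n with n | n <;> rfl
    · obtain ⟨e', he', rfl⟩ := List.mem_map.1 he
      rw [Eqn.holds_map]
      refine (Eqn.holds_congr e' ?_).1 (hz e' he')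
      funext n; rcases n with n | n <;> rfl
  · rintro ⟨y, hy⟩
    refine ⟨⟨fun n => y (0 :: n.1, n.2), fun e he => ?_⟩, ⟨fun n => y (1 :: n.1, n.2),
      fun e he => ?_⟩⟩
    · have := hy _ (Or.inl (List.mem_map_of_mem he))
      rw [Eqn.holds_map] at this
      refine (Eqn.holds_congr e ?_).1 this
      funext n; rcases n with n | n <;> rfl
    · have := hy _ (Or.inr (List.mem_map_of_mem he))
      rw [Eqn.holds_map] at this
      refine (Eqn.holds_congr e ?_).1 this
      funext n; rcases n with n | n <;> rfl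

/-- the left half of an environment -/
def lft (u : Nm → ℚ) : Nm → ℚ := fun n => u (0 :: n.1, n.2)
/-- the right half of an environment -/
def rgt (u : Nm → ℚ) : Nm → ℚ := fun n => u (1 :: n.1, n.2)

def exT : List ℕ ⊕ List ℕ → List ℕ ⊕ List ℕ
  | .inl (0 :: c) => .inl c
  | .inl (1 :: c) => .inr (0 :: c)
  | .inl c => .inr (2 :: c)
  | .inr c => .inr (1 :: c)

/-- an array of unknowns -/
theorem ex {S : List Bool → List ℕ → (Nm → ℚ) → (Nm → ℚ) → Prop}
    (h : UD (fun x p u => S x p (lft u) (rgt u))) : UD (fun x p v => ∃ w : Nm → ℚ, S x p v w) := by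
  obtain ⟨g, hg⟩ := h
  refine ⟨g.rn exT, fun x p v => ?_⟩
  simp only [Pg.run_rn]
  constructor
  · rintro ⟨w, hw⟩
    obtain ⟨y, hy⟩ := (hg x p (fun n => match n.1 with
      | 0 :: c => v (c, n.2)
      | 1 :: c => w (c, n.2)
      | _ => 0)).1 hw
    refine ⟨fun n => match n.1 with
      | 0 :: c => w (c, n.2)
      | 1 :: c => y (c, n.2)
      | _ => 0, fun e he => ?_⟩
    obtain ⟨e', he', rfl⟩ := List.mem_map.1 he
    rw [Eqn.holds_map]
    refine (Eqn.holds_congr e' ?_).1 (hy e' he')
    funext n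
    rcases n with ⟨c, a⟩ | n
    · rcases c with _ | ⟨_ | _ | i, c⟩ <;> rfl
    · rfl
  · rintro ⟨y, hy⟩
    have h1 := (hg x p (fun n => match n.1 with
      | 0 :: c => v (c, n.2)
      | 1 :: c => y (0 :: c, n.2)
      | c => y (2 :: c, n.2))).2 ⟨fun n => y (1 :: n.1, n.2), fun e he => ?_⟩
    · exact ⟨_, h1⟩
    · have := hy _ (List.mem_map_of_mem he)
      rw [Eqn.holds_map] at this
      refine (Eqn.holds_congr e ?_).1 this
      funext n
      rcases n with ⟨c, a⟩ | n
      · rcases c with _ | ⟨_ | _ | i, c⟩ <;> rfl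
      · rfl

/-- a bounded universal quantifier -/
theorem loop (b : Bd) (h : UD S) : UD (fun x p v => ∀ i < b.ev p, S x (i :: p) v) := by
  classical
  obtain ⟨g, hg⟩ := h
  refine ⟨.loop b (Pg.pre (.var 0) g), fun x p v => ?_⟩
  simp only [Pg.run, Pg.run_pre, List.mem_flatMap, List.mem_range]
  have hv : ∀ i, (Bd.var 0).ev (i :: p) = i := fun i => rfl
  simp only [hv]
  constructor
  · intro h1
    choose y hy using fun (i : ℕ) (hi : i < b.ev p) => (hg x (i :: p) v).1 (h1 i hi)
    refine ⟨fun n => match n.2 with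
      | i :: a => if hi : i < b.ev p then y i hi (n.1, a) else 0
      | [] => 0, ?_⟩
    rintro e ⟨i, hi, he⟩
    obtain ⟨e', he', rfl⟩ := List.mem_map.1 he
    rw [Eqn.holds_map]
    refine (Eqn.holds_congr e' ?_).1 (hy i hi e' he')
    funext n
    rcases n with n | n
    · rfl
    · simp only [paS, Sum.elim_inr, hi, dif_pos]
  · rintro ⟨y, hy⟩ i hi
    refine (hg x (i :: p) v).2 ⟨fun n => y (n.1, i :: n.2), fun e he => ?_⟩
    have := hy _ ⟨i, hi, List.mem_map_of_mem he⟩
    rw [Eqn.holds_map] at this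
    refine (Eqn.holds_congr e ?_).1 this
    funext n; rcases n with n | n <;> rfl

theorem bind (b : Bd) (h : UD S) : UD (fun x p v => S x (b.ev p :: p) v) := by
  obtain ⟨g, hg⟩ := h
  exact ⟨.bind b g, fun x p v => hg x (b.ev p :: p) v⟩

theorem ite (c : Cnd) (hS : UD S) (hT : UD T) :
    UD (fun x p v => if c.ev x p then S x p v else T x p v) := by
  obtain ⟨g, hg⟩ := hS
  obtain ⟨h, hh⟩ := hT
  refine ⟨.ite c g h, fun x p v => ?_⟩
  simp only [Pg.run]
  split_ifs
  · exact hg x p v
  · exact hh x p v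

/-- a list of emitted equations -/
def emits : List (Eqn (NmS ⊕ NmS)) → Pg
  | [] => .nil
  | e :: l => .seq (.emit e) (emits l)

lemma run_emits (x : List Bool) (p : List ℕ) (l : List (Eqn (NmS ⊕ NmS))) :
    (emits l).run x p = l.map (Eqn.map (Sum.map (evn p) (evn p))) := by
  induction l with
  | nil => rfl
  | cons e l ih => simp only [emits, Pg.run, ih, List.map_cons, List.singleton_append]

/-- predicates of constant size -/
theorem emb {α : Type} {c : ℕ} {T : (α → ℚ) → Prop} (h : SD α c T) (ν : α → NmS) :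
    UD (fun x p v => T (fun a => v (evn p (ν a)))) := by
  refine ⟨emits (h.L.map (Eqn.map (Sum.map ν (fun n => ([n], []))))), fun x p v => ?_⟩
  beta_reduce
  rw [h.spec, run_emits]
  simp only [List.map_map, List.mem_map, Function.comp_apply]
  constructor
  · rintro ⟨y, hy⟩
    refine ⟨fun n => match n.1 with
      | [i] => y i
      | _ => 0, ?_⟩
    rintro e ⟨e', he', rfl⟩
    rw [Eqn.map_map, Eqn.holds_map]
    refine (Eqn.holds_congr e' ?_).1 (hy e' he')
    funext n; rcases n with n | n <;> rfl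
  · rintro ⟨y, hy⟩
    refine ⟨fun i => y ([i], []), fun e he => ?_⟩
    have := hy _ ⟨e, he, rfl⟩
    rw [Eqn.map_map, Eqn.holds_map] at this
    refine (Eqn.holds_congr e ?_).1 this
    funext n; rcases n with n | n <;> rfl

/-- a finite constant conjunction -/
theorem all_list {ι : Type} {S : ι → List Bool → List ℕ → (Nm → ℚ) → Prop} (h : ∀ i, UD (S i))
    (l : List ι) : UD (fun x p v => ∀ i ∈ l, S i x p v) := by
  induction l with
  | nil => exact triv.congr (fun x p v => by simp)
  | cons i l ih => exact ((h i).and ih).congr (fun x p v => by simp)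

end UD

end Vale.Agent.P027.N.U
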